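import Vale.Agent.P262.H924.Box2

/-!
# P262, milestone 1: box caps (block CAPS, helper924), part 3: flatness, lines, log-concavity
-/

set_option linter.all false

open MeasureTheory ProbabilityTheory Set
open scoped ENNReal RealInnerProductSpace

namespace Vale.Agent.P262.H924

open Vale.Agent.P262.H118 Vale.Agent.P262.H395

section conc

variable {E : Type*} [NormedAddCommGroup E] [InnerProductSpace ℝ E]
variable {f : ℕ → E} {h A0 kap b0 : ℝ} {d : ℕ}

/-- `‖x‖² - rr x` is convex -/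
theorem norm_sq_sub_rr (hf : ONB f d) {j : ℕ} (hj : j ≤ d) (hh : 0 ≤ h) (x y : E) {s t : ℝ}
    (hs : 0 ≤ s) (ht : 0 ≤ t) (hst : s + t = 1) :
    ‖s • x + t • y‖ ^ 2 - rr f h j (s • x + t • y)
      ≤ s * (‖x‖ ^ 2 - rr f h j x) + t * (‖y‖ ^ 2 - rr f h j y) := by
  set z := s • x + t • y with hz
  set p := near f h j z with hp
  have hpB : p ∈ Box f h j := near_mem hf hj hh z
  have key : ∀ w : E, ‖w‖ ^ 2 - rr f h j w ≥ 2 * ⟪w, p⟫ - ‖p‖ ^ 2 := by
    intro w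
    have h1 := rr_le_norm_sub hf hj (x := w) hpB
    rw [norm_sub_sq_real] at h1
    linarith
  have h2 : ‖z‖ ^ 2 - rr f h j z = 2 * ⟪z, p⟫ - ‖p‖ ^ 2 := by
    rw [← norm_sub_near hf hj hh z, ← hp, norm_sub_sq_real]
    ring
  rw [h2]
  have h3 : ⟪z, p⟫ = s * ⟪x, p⟫ + t * ⟪y, p⟫ := by
    rw [hz, inner_add_left, real_inner_smul_left, real_inner_smul_left]
  have h4 := key x
  have h5 := key y
  have h6 : ‖p‖ ^ 2 = (s + t) * ‖p‖ ^ 2 := by rw [hst, one_mul]
  rw [h3]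
  nlinarith

/-- `-‖x‖²/2 + a rr x` is concave for `0 ≤ a ≤ 1/2` -/
theorem neg_norm_sq_add_rr (hf : ONB f d) {j : ℕ} (hj : j ≤ d) (hh : 0 ≤ h) {a : ℝ} (ha : 0 ≤ a)
    (ha' : a ≤ 1 / 2) (x y : E) {s t : ℝ} (hs : 0 ≤ s) (ht : 0 ≤ t) (hst : s + t = 1) :
    s * (-(‖x‖ ^ 2 / 2) + a * rr f h j x) + t * (-(‖y‖ ^ 2 / 2) + a * rr f h j y)
      ≤ -(‖s • x + t • y‖ ^ 2 / 2) + a * rr f h j (s • x + t • y) := by
  have h1 := norm_sq_sub_rr hf hj hh x y hs ht hst
  have h2 : ‖s • x + t • y‖ ^ 2 ≤ s * ‖x‖ ^ 2 + t * ‖y‖ ^ 2 := by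
    have e : s * ‖x‖ ^ 2 + t * ‖y‖ ^ 2 - ‖s • x + t • y‖ ^ 2 = s * t * ‖x - y‖ ^ 2 := by
      rw [norm_add_sq_real, norm_sub_sq_real, norm_smul, norm_smul, real_inner_smul_left,
        real_inner_smul_right, Real.norm_of_nonneg hs, Real.norm_of_nonneg ht]
      have : t = 1 - s := by linarith
      subst this
      ring
    have : 0 ≤ s * t * ‖x - y‖ ^ 2 := by positivity
    linarith
  nlinarith

/-- the weight `exp (a rr)` times the Gaussian weight is log-concave, `0 ≤ a ≤ 1/2` -/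
theorem logConc_weight (hf : ONB f d) {j : ℕ} (hj : j ≤ d) (hh : 0 ≤ h) {a : ℝ} (ha : 0 ≤ a)
    (ha' : a ≤ 1 / 2) : H493.LogConc fun x : E =>
      ENNReal.ofReal (Real.exp (-(‖x‖ ^ 2 / 2))) * ENNReal.ofReal (Real.exp (a * rr f h j x)) := by
  intro x y s t hs ht hst
  have e : ∀ z : E, ENNReal.ofReal (Real.exp (-(‖z‖ ^ 2 / 2)))
      * ENNReal.ofReal (Real.exp (a * rr f h j z))
      = ENNReal.ofReal (Real.exp (-(‖z‖ ^ 2 / 2) + a * rr f h j z)) := fun z => by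
    rw [← ENNReal.ofReal_mul (Real.exp_pos _).le, ← Real.exp_add]
  simp only [e]
  rw [ENNReal.ofReal_rpow_of_pos (Real.exp_pos _), ENNReal.ofReal_rpow_of_pos (Real.exp_pos _),
    ← ENNReal.ofReal_mul (by positivity), ← Real.exp_mul, ← Real.exp_mul, ← Real.exp_add]
  apply ENNReal.ofReal_le_ofReal
  apply Real.exp_le_exp.2
  have := neg_norm_sq_add_rr hf hj hh ha ha' x y hs.le ht.le hst
  linarith

/-- the caps times the Gaussian weight are log-concave -/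
theorem logConc_cap (hf : ONB f d) {j : ℕ} (hj : j ≤ d) (hh : 0 ≤ h) (hA : 0 ≤ A0)
    (hkap : 0 ≤ kap) : H493.LogConc fun x : E =>
      ENNReal.ofReal (Real.exp (-(‖x‖ ^ 2 / 2))) * cap A0 kap f h j x := by
  have h1 := logConc_weight (h := h) hf hj hh (a := 1 / 8) (by norm_num) (by norm_num)
  have h0 : 0 ≤ A0 * kap ^ j := by positivity
  set c : ℝ≥0∞ := ENNReal.ofReal (A0 * kap ^ j) with hc
  have e : ∀ z : E, ENNReal.ofReal (Real.exp (-(‖z‖ ^ 2 / 2))) * cap A0 kap f h j z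
      = c * (ENNReal.ofReal (Real.exp (-(‖z‖ ^ 2 / 2)))
        * ENNReal.ofReal (Real.exp (1 / 8 * rr f h j z))) := fun z => by
    unfold cap capR
    rw [hc, mul_left_comm, ← ENNReal.ofReal_mul h0]
    congr 3
    ring_nf
  intro x y s t hs ht hst
  simp only [e]
  have h2 := h1 x y s t hs ht hst
  rw [ENNReal.mul_rpow_of_nonneg _ _ hs.le, ENNReal.mul_rpow_of_nonneg _ _ ht.le]
  calc c ^ s * (ENNReal.ofReal (Real.exp (-(‖x‖ ^ 2 / 2)))
        * ENNReal.ofReal (Real.exp (1 / 8 * rr f h j x))) ^ s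
        * (c ^ t * (ENNReal.ofReal (Real.exp (-(‖y‖ ^ 2 / 2)))
        * ENNReal.ofReal (Real.exp (1 / 8 * rr f h j y))) ^ t)
      = (c ^ s * c ^ t) * ((ENNReal.ofReal (Real.exp (-(‖x‖ ^ 2 / 2)))
        * ENNReal.ofReal (Real.exp (1 / 8 * rr f h j x))) ^ s
        * (ENNReal.ofReal (Real.exp (-(‖y‖ ^ 2 / 2)))
        * ENNReal.ofReal (Real.exp (1 / 8 * rr f h j y))) ^ t) := by ring
    _ ≤ _ := by
      rw [H493.rpow_mul_rpow_self hs ht hst]
      gcongr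

end conc

section lines

variable {E : Type*} [NormedAddCommGroup E] [InnerProductSpace ℝ E]
variable {f : ℕ → E} {h A0 kap b0 : ℝ} {d : ℕ}

/-- on a line in a direction of the flag, `cap * exp (-s²/2) ≤ cap` at any point of the line -/
theorem capR_line_flag (hf : ONB f d) (hh : 0 ≤ h) (hA : 0 ≤ A0) (hkap : 0 ≤ kap) {j k : ℕ}
    (hj : j ≤ d) (hk : k < d) (x : E) (t : ℝ) :
    capR A0 kap f h j (x + t • f k) * Real.exp (-(⟪f k, x + t • f k⟫ ^ 2 / 2))
      ≤ capR A0 kap f h j x := by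
  have h0 : 0 ≤ A0 * kap ^ j := by positivity
  have e1 : ⟪f k, x + t • f k⟫ = ⟪f k, x⟫ + t := by
    rw [inner_add_right, inner_smul_right, real_inner_self_eq_norm_sq, hf.norm k hk]; ring
  rcases lt_or_ge k j with h1 | h1
  · rw [e1]
    unfold capR
    rw [rr_line_in hf h1 hj, mul_assoc, ← Real.exp_add]
    refine mul_le_mul_of_nonneg_left (Real.exp_le_exp.2 ?_) h0
    have h2 := ex_nonneg h (⟪f k, x⟫ + t)
    have h3 := ex_le_abs hh (⟪f k, x⟫ + t)
    have h4 : ex h (⟪f k, x⟫ + t) ^ 2 ≤ (⟪f k, x⟫ + t) ^ 2 := by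
      rw [← sq_abs (⟪f k, x⟫ + t)]
      exact pow_le_pow_left₀ h2 h3 2
    have h5 := sq_nonneg (ex h ⟪f k, x⟫)
    nlinarith
  · rw [capR_line_out hf h1 hk]
    have h2 := capR_nonneg (f := f) (h := h) hA hkap j x
    have h3 : Real.exp (-(⟪f k, x + t • f k⟫ ^ 2 / 2)) ≤ 1 :=
      Real.exp_le_one_iff.2 (by have := sq_nonneg ⟪f k, x + t • f k⟫; linarith)
    nlinarith

/-- the same in a direction orthogonal to the label space -/
theorem capR_line_perp (hA : 0 ≤ A0) (hkap : 0 ≤ kap) {j : ℕ} {e : E} (he : e ∈ (L f j)ᗮ)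
    (x : E) (t : ℝ) :
    capR A0 kap f h j (x + t • e) * Real.exp (-(⟪e, x + t • e⟫ ^ 2 / 2))
      ≤ capR A0 kap f h j x := by
  rw [capR_add_perp le_rfl x (Submodule.smul_mem _ t he)]
  have h2 := capR_nonneg (f := f) (h := h) hA hkap j x
  have h3 : Real.exp (-(⟪e, x + t • e⟫ ^ 2 / 2)) ≤ 1 :=
    Real.exp_le_one_iff.2 (by have := sq_nonneg ⟪e, x + t • e⟫; linarith)
  nlinarith

theorem cap_line_flag (hf : ONB f d) (hh : 0 ≤ h) (hA : 0 ≤ A0) (hkap : 0 ≤ kap) {j k : ℕ}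
    (hj : j ≤ d) (hk : k < d) (x : E) (t : ℝ) :
    cap A0 kap f h j (x + t • f k) * ENNReal.ofReal (Real.exp (-(⟪f k, x + t • f k⟫ ^ 2 / 2)))
      ≤ cap A0 kap f h j x := by
  unfold cap
  rw [← ENNReal.ofReal_mul (capR_nonneg hA hkap _ _)]
  exact ENNReal.ofReal_le_ofReal (capR_line_flag hf hh hA hkap hj hk x t)

theorem cap_line_perp (hA : 0 ≤ A0) (hkap : 0 ≤ kap) {j : ℕ} {e : E} (he : e ∈ (L f j)ᗮ)
    (x : E) (t : ℝ) :
    cap A0 kap f h j (x + t • e) * ENNReal.ofReal (Real.exp (-(⟪e, x + t • e⟫ ^ 2 / 2)))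
      ≤ cap A0 kap f h j x := by
  unfold cap
  rw [← ENNReal.ofReal_mul (capR_nonneg hA hkap _ _)]
  exact ENNReal.ofReal_le_ofReal (capR_line_perp hA hkap he x t)

/-- **the supremum over a line**, direction of the flag -/
theorem iSup_cap_flag (hf : ONB f d) (hh : 0 ≤ h) (hA : 0 ≤ A0) (hkap : 0 ≤ kap) {j k : ℕ}
    (hj : j ≤ d) (hk : k < d) (x : E) :
    ⨆ t : ℝ, cap A0 kap f h j (x + t • f k)
        * ENNReal.ofReal (Real.exp (-(⟪f k, x + t • f k⟫ ^ 2 / 2)))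
      ≤ cap A0 kap f h j x := iSup_le fun t => cap_line_flag hf hh hA hkap hj hk x t

/-- **the supremum over a line**, direction orthogonal to the labels -/
theorem iSup_cap_perp (hA : 0 ≤ A0) (hkap : 0 ≤ kap) {j : ℕ} {e : E} (he : e ∈ (L f j)ᗮ) (x : E) :
    ⨆ t : ℝ, cap A0 kap f h j (x + t • e)
        * ENNReal.ofReal (Real.exp (-(⟪e, x + t • e⟫ ^ 2 / 2)))
      ≤ cap A0 kap f h j x := iSup_le fun t => cap_line_perp hA hkap he x t

/-- the cap as a distance weight (606's `dw`) -/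
theorem cap_eq_dist (hf : ONB f d) (hA : 0 ≤ A0) (hkap : 0 ≤ kap) {j : ℕ} (hj : j ≤ d)
    (hh : 0 ≤ h) (x : E) : cap A0 kap f h j x = ENNReal.ofReal (A0 * kap ^ j)
      * ENNReal.ofReal (Real.exp (1 / 8 * Metric.infDist x (Box f h j) ^ 2)) := by
  unfold cap capR
  rw [infDist_box_sq hf hj hh, ← ENNReal.ofReal_mul (by positivity)]
  congr 2
  ring_nf

/-- slope, (A5) in ENNReal form -/
theorem cap_add_le (hf : ONB f d) (hA : 0 ≤ A0) (hkap : 0 ≤ kap) {j : ℕ} (hj : j ≤ d)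
    (hh : 0 ≤ h) {R : ℝ} {x e : E} (hx : ‖x‖ ≤ R) {t : ℝ} (hxt : ‖x + t • e‖ ≤ R)
    (he : ‖e‖ = 1) :
    cap A0 kap f h j (x + t • e) ≤ ENNReal.ofReal (Real.exp (R / 2 * |t|)) * cap A0 kap f h j x := by
  unfold cap
  rw [← ENNReal.ofReal_mul (Real.exp_pos _).le]
  apply ENNReal.ofReal_le_ofReal
  refine (capR_add_le hf hA hkap hj hh x (t • e)).trans ?_
  have h2 := capR_nonneg (f := f) (h := h) hA hkap j x
  refine mul_le_mul_of_nonneg_right (Real.exp_le_exp.2 ?_) h2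
  have h3 : ‖t • e‖ = |t| := by rw [norm_smul, he, mul_one, Real.norm_eq_abs]
  have h4 : |t| ≤ 2 * R := by
    rw [← h3]
    calc ‖t • e‖ = ‖(x + t • e) - x‖ := by rw [add_sub_cancel_left]
      _ ≤ ‖x + t • e‖ + ‖x‖ := norm_sub_le _ _
      _ ≤ 2 * R := by linarith
  rw [h3]
  have h5 := abs_nonneg t
  nlinarith [norm_nonneg x]

end lines

section flat

variable {E : Type*} [NormedAddCommGroup E] [InnerProductSpace ℝ E] [FiniteDimensional ℝ E]
  [MeasurableSpace E] [BorelSpace E]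

variable {f : ℕ → E} {h A0 kap b0 : ℝ} {d : ℕ}

/-- below a label the cap is at least the flat value -/
theorem cap_mix_ge (hf : ONB f d) (hA : 0 ≤ A0) (hkap : 0 ≤ kap) {l j : ℕ} (hlj : l ≤ j)
    (hj : j ≤ d) (x z : E) :
    ENNReal.ofReal (kap ^ (j - l)) * cap A0 kap f h l x ≤ cap A0 kap f h j (mix (L f l) x z) := by
  unfold cap
  rw [← ENNReal.ofReal_mul (by positivity)]
  apply ENNReal.ofReal_le_ofReal
  unfold capR
  rw [rr_mix hf hlj hj]
  obtain ⟨m, rfl⟩ := Nat.exists_eq_add_of_le hlj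
  rw [Nat.add_sub_cancel_left, pow_add]
  have h1 : 0 ≤ ∑ k ∈ Finset.Ico l (l + m), ex h ⟪f k, z⟫ ^ 2 :=
    Finset.sum_nonneg fun _ _ => sq_nonneg _
  have h2 : Real.exp (rr f h l x / 8)
      ≤ Real.exp ((rr f h l x + ∑ k ∈ Finset.Ico l (l + m), ex h ⟪f k, z⟫ ^ 2) / 8) :=
    Real.exp_le_exp.2 (by linarith)
  have h3 : 0 ≤ A0 * (kap ^ l * kap ^ m) := by positivity
  calc kap ^ m * (A0 * kap ^ l * Real.exp (rr f h l x / 8))
      = A0 * (kap ^ l * kap ^ m) * Real.exp (rr f h l x / 8) := by ring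
    _ ≤ _ := mul_le_mul_of_nonneg_left h2 h3

lemma pow_le_one_add {y : ℝ} (hy : 0 ≤ y) {n : ℕ} (hn : n * y ≤ 1) :
    (1 + y) ^ n ≤ 1 + 2 * (n * y) := by
  have h1 : (1 + y) ^ n ≤ Real.exp (n * y) := by
    rw [Real.exp_nat_mul]
    exact pow_le_pow_left₀ (by linarith) (by linarith [Real.add_one_le_exp y]) n
  refine h1.trans ?_
  have h0 : 0 ≤ n * y := by positivity
  have h3 := Real.exp_bound' h0 hn (n := 2) (by norm_num)
  simp only [Finset.sum_range_succ, Finset.sum_range_zero, Nat.factorial] at h3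
  norm_num at h3
  nlinarith

/-- **FLAT**: the average of the cap below a label is the flat value up to `1 + η`,
`6 d exp(-h²/2) ≤ η` -/
theorem fib_cap_flat (hf : ONB f d) (hA : 0 ≤ A0) (hkap : 0 ≤ kap) (hh : 0 ≤ h) {η : ℝ}
    (hη : 6 * d * Real.exp (-h ^ 2 / 2) ≤ η) (hη1 : η ≤ 1) {l j : ℕ} (hlj : l ≤ j) (hj : j ≤ d)
    (x : E) : fib (L f l) (cap A0 kap f h j) x
      ≤ ENNReal.ofReal (1 + η) * (ENNReal.ofReal (kap ^ (j - l)) * cap A0 kap f h l x) := by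
  have he := (Real.exp_pos (-h ^ 2 / 2)).le
  refine (fib_cap_le hf hA hkap hh hlj hj x).trans ?_
  rw [← mul_assoc, ← ENNReal.ofReal_mul (by
    have : (0 : ℝ) ≤ d := Nat.cast_nonneg d
    have : 0 ≤ 6 * d * Real.exp (-h ^ 2 / 2) := by positivity
    linarith)]
  gcongr
  rw [mul_pow, mul_comm]
  refine mul_le_mul_of_nonneg_right ?_ (by positivity)
  have hjd : ((j - l : ℕ) : ℝ) ≤ d := by
    have : j - l ≤ d := by omega
    exact_mod_cast this
  have h1 : ((j - l : ℕ) : ℝ) * (3 * Real.exp (-h ^ 2 / 2)) ≤ d * (3 * Real.exp (-h ^ 2 / 2)) := by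
    gcongr
  have h2 := pow_le_one_add (y := 3 * Real.exp (-h ^ 2 / 2)) (by positivity) (n := j - l)
    (by linarith)
  linarith

/-- FLAT for the line suprema, direction of the flag -/
theorem fib_iSup_cap_flag (hf : ONB f d) (hA : 0 ≤ A0) (hkap : 0 ≤ kap) (hh : 0 ≤ h) {η : ℝ}
    (hη : 6 * d * Real.exp (-h ^ 2 / 2) ≤ η) (hη1 : η ≤ 1) {l j k : ℕ} (hlj : l ≤ j) (hj : j ≤ d)
    (hk : k < d) (x : E) :
    fib (L f l) (fun y => ⨆ t : ℝ, cap A0 kap f h j (y + t • f k)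
        * ENNReal.ofReal (Real.exp (-(⟪f k, y + t • f k⟫ ^ 2 / 2)))) x
      ≤ ENNReal.ofReal (1 + η) * (ENNReal.ofReal (kap ^ (j - l)) * cap A0 kap f h l x) :=
  (fib_mono (fun y => iSup_cap_flag hf hh hA hkap hj hk y) x).trans
    (fib_cap_flat hf hA hkap hh hη hη1 hlj hj x)

/-- FLAT for the line suprema, direction orthogonal to the labels -/
theorem fib_iSup_cap_perp (hf : ONB f d) (hA : 0 ≤ A0) (hkap : 0 ≤ kap) (hh : 0 ≤ h) {η : ℝ}
    (hη : 6 * d * Real.exp (-h ^ 2 / 2) ≤ η) (hη1 : η ≤ 1) {l j : ℕ} (hlj : l ≤ j) (hj : j ≤ d)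
    {e : E} (he : e ∈ (L f j)ᗮ) (x : E) :
    fib (L f l) (fun y => ⨆ t : ℝ, cap A0 kap f h j (y + t • e)
        * ENNReal.ofReal (Real.exp (-(⟪e, y + t • e⟫ ^ 2 / 2)))) x
      ≤ ENNReal.ofReal (1 + η) * (ENNReal.ofReal (kap ^ (j - l)) * cap A0 kap f h l x) :=
  (fib_mono (fun y => iSup_cap_perp hA hkap he y) x).trans
    (fib_cap_flat hf hA hkap hh hη hη1 hlj hj x)

/-- **health transfer**: the weighted mass of a set below a label -/
theorem fib_cap_indicator_ge (hf : ONB f d) (hA : 0 ≤ A0) (hkap : 0 ≤ kap) {l j : ℕ}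
    (hlj : l ≤ j) (hj : j ≤ d) (x : E) {S : Set E} (hS : MeasurableSet S) :
    ENNReal.ofReal (kap ^ (j - l)) * cap A0 kap f h l x * fib (L f l) (S.indicator 1) x
      ≤ fib (L f l) (S.indicator (cap A0 kap f h j)) x := by
  unfold fib
  have hmm : Measurable fun z : E => S.indicator (1 : E → ℝ≥0∞) (mix (L f l) x z) :=
    (measurable_one.indicator hS).comp (measurable_mix_right _ x)
  rw [← lintegral_const_mul _ hmm]
  apply lintegral_mono
  intro z
  simp only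
  by_cases hz : mix (L f l) x z ∈ S
  · rw [indicator_of_mem hz, indicator_of_mem hz]
    simp only [Pi.one_apply, mul_one]
    exact cap_mix_ge hf hA hkap hlj hj x z
  · rw [indicator_of_notMem hz, indicator_of_notMem hz, mul_zero]

/-- (P) with one more line direction: the mass of the labels whose caps are not flat -/
theorem fib_not_flat_le (hf : ONB f d) (hh : 0 ≤ h) {l j : ℕ} (hlj : l ≤ j) (hj : j ≤ d) (x : E) :
    fib (L f l) ({y : E | capR A0 kap f h j y ≠ kap ^ (j - l) * capR A0 kap f h l y}.indicator 1) x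
      ≤ ENNReal.ofReal (2 * (j - l : ℕ) * Real.exp (-h ^ 2 / 2)) := by
  refine le_trans ?_ (gauss_Cb_compl hf hh (i := l) hj)
  unfold fib
  have hm : MeasurableSet (Cb f h l j)ᶜ := (isClosed_Cb l j).measurableSet.compl
  rw [← lintegral_indicator_one hm]
  apply lintegral_mono
  intro z
  simp only
  by_cases hz : z ∈ Cb f h l j
  · rw [indicator_of_notMem, indicator_of_notMem (by simpa using hz)]
    simp only [mem_setOf_eq, not_not]
    rw [capR_mix_of_mem hf hlj hj x hz]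
    congr 1
    exact capR_congr fun k hk => (inner_mix_lt hk x z).symm
  · rw [indicator_of_mem (show z ∈ (Cb f h l j)ᶜ from hz)]
    exact indicator_le_self' (by intros; exact zero_le) _

end flat

end Vale.Agent.P262.H924
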