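import Vale.Agent.P262.H924.Box
import Vale.Agent.P262.H59.Rim

/-!
# P262, milestone 1: box caps (block CAPS, helper924), part 2: Gaussian averages
-/

set_option linter.all false

open MeasureTheory ProbabilityTheory Set
open scoped ENNReal RealInnerProductSpace

namespace Vale.Agent.P262.H924

open Vale.Agent.P262.H118 Vale.Agent.P262.H395

/-! ### one dimensional integral -/

/-- `E exp (ex h g ^ 2 / 8)` -/
noncomputable def I1 (h : ℝ) : ℝ≥0∞ :=
  ∫⁻ s, ENNReal.ofReal (Real.exp (ex h s ^ 2 / 8)) ∂gaussianReal 0 1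

lemma pdf_bound {h : ℝ} (hh : 0 ≤ h) (s : ℝ) :
    Real.exp (ex h s ^ 2 / 8) * gaussianPDFReal 0 1 s
      ≤ gaussianPDFReal 0 1 s + 3 / 2 * Real.exp (-h ^ 2 / 2) *
        (gaussianPDFReal h (4 / 3) s + gaussianPDFReal (-h) (4 / 3) s) := by
  have hp0 := gaussianPDFReal_nonneg 0 1 s
  have hp1 := gaussianPDFReal_nonneg h (4 / 3) s
  have hp2 := gaussianPDFReal_nonneg (-h) (4 / 3) s
  have he := (Real.exp_pos (-h ^ 2 / 2)).le
  -- the key inequality for `a = ±h` with `a ≤ s a / h …`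
  have key : ∀ a : ℝ, a ^ 2 = h ^ 2 → h ^ 2 ≤ s * a → ex h s ^ 2 = (s - a) ^ 2 →
      Real.exp (ex h s ^ 2 / 8) * gaussianPDFReal 0 1 s
        ≤ 3 / 2 * Real.exp (-h ^ 2 / 2) * gaussianPDFReal a (4 / 3) s := by
    intro a ha has hex
    unfold gaussianPDFReal
    have hc : (Real.sqrt (2 * Real.pi * (1 : NNReal)))⁻¹
        ≤ 3 / 2 * (Real.sqrt (2 * Real.pi * ((4 / 3 : NNReal) : ℝ)))⁻¹ := by
      have hpi := Real.pi_pos
      push_cast
      have h1 : Real.sqrt (2 * Real.pi * (4 / 3)) ≤ 3 / 2 * Real.sqrt (2 * Real.pi * 1) := by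
        rw [Real.sqrt_le_left (by positivity), mul_pow, Real.sq_sqrt (by positivity)]
        nlinarith
      have h2 : 0 < Real.sqrt (2 * Real.pi * 1) := Real.sqrt_pos.2 (by positivity)
      have h3 : 0 < Real.sqrt (2 * Real.pi * (4 / 3)) := Real.sqrt_pos.2 (by positivity)
      rw [← div_eq_mul_inv, inv_eq_one_div, div_le_div_iff₀ h2 h3, one_mul]
      exact h1
    have hE : Real.exp (ex h s ^ 2 / 8) * Real.exp (-(s - 0) ^ 2 / (2 * ((1 : NNReal) : ℝ)))
        ≤ Real.exp (-h ^ 2 / 2) * Real.exp (-(s - a) ^ 2 / (2 * ((4 / 3 : NNReal) : ℝ))) := by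
      rw [← Real.exp_add, ← Real.exp_add]
      apply Real.exp_le_exp.2
      rw [hex]
      push_cast
      have e1 : -(s - a) ^ 2 / (2 * (4 / 3)) = -(3 / 8) * (s - a) ^ 2 := by ring
      rw [e1]
      nlinarith
    calc Real.exp (ex h s ^ 2 / 8) * ((Real.sqrt (2 * Real.pi * (1 : NNReal)))⁻¹ *
          Real.exp (-(s - 0) ^ 2 / (2 * ((1 : NNReal) : ℝ))))
        = (Real.sqrt (2 * Real.pi * (1 : NNReal)))⁻¹ * (Real.exp (ex h s ^ 2 / 8) *
          Real.exp (-(s - 0) ^ 2 / (2 * ((1 : NNReal) : ℝ)))) := by ring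
      _ ≤ (3 / 2 * (Real.sqrt (2 * Real.pi * ((4 / 3 : NNReal) : ℝ)))⁻¹) *
          (Real.exp (-h ^ 2 / 2) * Real.exp (-(s - a) ^ 2 / (2 * ((4 / 3 : NNReal) : ℝ)))) := by
          gcongr
      _ = _ := by ring
  rcases le_or_gt |s| h with h1 | h1
  · rw [ex_of_le h1]
    have : Real.exp ((0 : ℝ) ^ 2 / 8) = 1 := by norm_num
    rw [this, one_mul]
    have : 0 ≤ 3 / 2 * Real.exp (-h ^ 2 / 2) *
        (gaussianPDFReal h (4 / 3) s + gaussianPDFReal (-h) (4 / 3) s) := by positivity
    linarith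
  · have hex : ex h s = |s| - h := max_eq_left (by linarith)
    rcases abs_cases s with ⟨h2, h3⟩ | ⟨h2, h3⟩
    · have := key h rfl (by rw [h2] at h1; nlinarith) (by rw [hex, h2])
      have h4 : 0 ≤ 3 / 2 * Real.exp (-h ^ 2 / 2) * gaussianPDFReal (-h) (4 / 3) s := by positivity
      linarith
    · have := key (-h) (by ring) (by rw [h2] at h1; nlinarith) (by rw [hex, h2]; ring)
      have h4 : 0 ≤ 3 / 2 * Real.exp (-h ^ 2 / 2) * gaussianPDFReal h (4 / 3) s := by positivity
      linarith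

theorem I1_le {h : ℝ} (hh : 0 ≤ h) :
    I1 h ≤ ENNReal.ofReal (1 + 3 * Real.exp (-h ^ 2 / 2)) := by
  have hm : Measurable fun s : ℝ => ENNReal.ofReal (Real.exp (ex h s ^ 2 / 8)) := by
    have : Continuous fun s : ℝ => Real.exp (ex h s ^ 2 / 8) :=
      Real.continuous_exp.comp (((continuous_ex h).pow 2).div_const 8)
    exact this.measurable.ennreal_ofReal
  have he := (Real.exp_pos (-h ^ 2 / 2)).le
  unfold I1
  rw [gaussianReal_of_var_ne_zero 0 (one_ne_zero)]
  rw [lintegral_withDensity_eq_lintegral_mul _ (measurable_gaussianPDF 0 1) hm]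
  have h43 : ((4 / 3 : NNReal)) ≠ 0 := by norm_num
  calc ∫⁻ s, (gaussianPDF 0 1 * fun s => ENNReal.ofReal (Real.exp (ex h s ^ 2 / 8))) s
      ≤ ∫⁻ s, (ENNReal.ofReal (gaussianPDFReal 0 1 s) +
          ENNReal.ofReal (3 / 2 * Real.exp (-h ^ 2 / 2)) *
            (ENNReal.ofReal (gaussianPDFReal h (4 / 3) s) +
              ENNReal.ofReal (gaussianPDFReal (-h) (4 / 3) s))) := by
        apply lintegral_mono
        intro s
        simp only [Pi.mul_apply, gaussianPDF]
        rw [← ENNReal.ofReal_mul (gaussianPDFReal_nonneg _ _ _),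
          ← ENNReal.ofReal_add (gaussianPDFReal_nonneg _ _ _) (gaussianPDFReal_nonneg _ _ _),
          ← ENNReal.ofReal_mul (by positivity),
          ← ENNReal.ofReal_add (gaussianPDFReal_nonneg _ _ _) (mul_nonneg (by positivity)
            (add_nonneg (gaussianPDFReal_nonneg _ _ _) (gaussianPDFReal_nonneg _ _ _)))]
        apply ENNReal.ofReal_le_ofReal
        rw [mul_comm]
        exact pdf_bound hh s
    _ = 1 + ENNReal.ofReal (3 / 2 * Real.exp (-h ^ 2 / 2)) * (1 + 1) := by
        have m1 : Measurable fun s : ℝ => ENNReal.ofReal (gaussianPDFReal 0 1 s) :=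
          (measurable_gaussianPDFReal 0 1).ennreal_ofReal
        have m2 : Measurable fun s : ℝ => ENNReal.ofReal (gaussianPDFReal h (4 / 3) s) :=
          (measurable_gaussianPDFReal h (4 / 3)).ennreal_ofReal
        have m3 : Measurable fun s : ℝ => ENNReal.ofReal (gaussianPDFReal (-h) (4 / 3) s) :=
          (measurable_gaussianPDFReal (-h) (4 / 3)).ennreal_ofReal
        have m23 : Measurable fun s : ℝ => ENNReal.ofReal (gaussianPDFReal h (4 / 3) s) +
            ENNReal.ofReal (gaussianPDFReal (-h) (4 / 3) s) := m2.add m3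
        rw [lintegral_add_left m1, lintegral_const_mul _ m23, lintegral_add_left m2,
          lintegral_gaussianPDFReal_eq_one 0 one_ne_zero,
          lintegral_gaussianPDFReal_eq_one h h43,
          lintegral_gaussianPDFReal_eq_one (-h) h43]
    _ = _ := by
        rw [ENNReal.ofReal_add zero_le_one (by positivity), ENNReal.ofReal_one]
        congr 1
        rw [show (1 : ℝ≥0∞) + 1 = ENNReal.ofReal 2 by norm_num,
          ← ENNReal.ofReal_mul (by positivity)]
        congr 1
        ring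

section prob

variable {E : Type*} [NormedAddCommGroup E] [InnerProductSpace ℝ E] [FiniteDimensional ℝ E]
  [MeasurableSpace E] [BorelSpace E]

variable {f : ℕ → E} {h A0 kap b0 : ℝ} {d : ℕ}

/-- inner products with the flag vectors after mixing -/
lemma inner_mix_lt {j k : ℕ} (hk : k < j) (x z : E) : ⟪f k, mix (L f j) x z⟫ = ⟪f k, x⟫ := by
  have h1 : mix (L f j) x z - x ∈ (L f j)ᗮ := by
    rw [← Submodule.starProjection_apply_eq_zero_iff, map_sub, starProjection_mix, sub_self]
  have h2 := inner_perp hk h1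
  rw [inner_sub_right] at h2
  linarith

lemma inner_mix_ge (hf : ONB f d) {j k : ℕ} (hjk : j ≤ k) (hk : k < d) (x z : E) :
    ⟪f k, mix (L f j) x z⟫ = ⟪f k, z⟫ := by
  have h1 : f k ∈ (L f j)ᗮ := Submodule.orthogonal_le (L_mono f hjk) (hf.mem_perp hk)
  have h2 : ∀ y, ⟪f k, (L f j).starProjection y⟫ = 0 := fun y => by
    rw [real_inner_comm]
    exact (Submodule.mem_orthogonal _ _).1 h1 _ (Submodule.starProjection_apply_mem _ y)
  unfold mix
  rw [inner_add_right, inner_sub_right, h2, h2]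
  ring

/-- **(A2), one level** -/
theorem fib_cap_succ (hf : ONB f d) (hA : 0 ≤ A0) (hkap : 0 ≤ kap) {l : ℕ} (hl : l < d) (x : E) :
    fib (L f l) (cap A0 kap f h (l + 1)) x
      = ENNReal.ofReal kap * I1 h * cap A0 kap f h l x := by
  have hm1 : Measurable fun z : E => ⟪f l, z⟫ := by fun_prop
  have hm2 : Measurable fun s : ℝ => ENNReal.ofReal (Real.exp (ex h s ^ 2 / 8)) := by
    have : Continuous fun s : ℝ => Real.exp (ex h s ^ 2 / 8) :=
      Real.continuous_exp.comp (((continuous_ex h).pow 2).div_const 8)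
    exact this.measurable.ennreal_ofReal
  unfold fib
  have e : ∀ z, cap A0 kap f h (l + 1) (mix (L f l) x z)
      = (ENNReal.ofReal kap * cap A0 kap f h l x) *
        ENNReal.ofReal (Real.exp (ex h ⟪f l, z⟫ ^ 2 / 8)) := by
    intro z
    unfold cap
    rw [capR_succ, inner_mix_ge hf le_rfl hl, capR_congr (x := mix (L f l) x z) (y := x)
      fun k hk => inner_mix_lt hk x z]
    rw [← ENNReal.ofReal_mul hkap, ← ENNReal.ofReal_mul
      (mul_nonneg hkap (capR_nonneg hA hkap l x))]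
    congr 1
    ring
  simp_rw [e]
  have hm3 : Measurable fun z : E => ENNReal.ofReal (Real.exp (ex h ⟪f l, z⟫ ^ 2 / 8)) :=
    hm2.comp hm1
  rw [lintegral_const_mul _ hm3]
  have e2 : ∫⁻ z, ENNReal.ofReal (Real.exp (ex h ⟪f l, z⟫ ^ 2 / 8)) ∂stdGaussian E = I1 h := by
    unfold I1
    rw [← H59.map_inner_std (hf.norm l hl), lintegral_map hm2 hm1]
  rw [e2]
  ring

/-- **(A2), several levels** -/
theorem fib_cap (hf : ONB f d) (hA : 0 ≤ A0) (hkap : 0 ≤ kap) {l : ℕ} (m : ℕ) (hl : l + m ≤ d)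
    (x : E) : fib (L f l) (cap A0 kap f h (l + m)) x
      = (ENNReal.ofReal kap * I1 h) ^ m * cap A0 kap f h l x := by
  induction m with
  | zero =>
    rw [pow_zero, one_mul, add_zero]
    exact fib_eq_self (inv_cap le_rfl) x
  | succ m ih =>
    have h1 := ih (by omega)
    rw [← fib_tower (L_mono f (Nat.le_add_right l m)) (measurable_cap (l + (m + 1)))]
    have e : fib (L f (l + m)) (cap A0 kap f h (l + (m + 1)))
        = fun y => (ENNReal.ofReal kap * I1 h) * cap A0 kap f h (l + m) y := by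
      funext y
      exact fib_cap_succ hf hA hkap (by omega) y
    rw [e, fib_mul (inv_const _ _) (measurable_cap _), h1]
    ring

theorem fib_cap_le (hf : ONB f d) (hA : 0 ≤ A0) (hkap : 0 ≤ kap) (hh : 0 ≤ h) {l j : ℕ}
    (hlj : l ≤ j) (hj : j ≤ d) (x : E) : fib (L f l) (cap A0 kap f h j) x
      ≤ ENNReal.ofReal ((kap * (1 + 3 * Real.exp (-h ^ 2 / 2))) ^ (j - l))
        * cap A0 kap f h l x := by
  obtain ⟨m, rfl⟩ := Nat.exists_eq_add_of_le hlj
  rw [fib_cap hf hA hkap m hj, Nat.add_sub_cancel_left]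
  have he := (Real.exp_pos (-h ^ 2 / 2)).le
  rw [ENNReal.ofReal_pow (by positivity), ENNReal.ofReal_mul hkap]
  gcongr
  exact I1_le hh

/-- **(A2), killed children**: the new killed labels have mass `≤ (1/b0) E[cap]` -/
theorem fib_Zk_succ (hf : ONB f d) (hA : 0 ≤ A0) (hkap : 0 ≤ kap) (hh : 0 ≤ h) (hb : 0 < b0)
    {l : ℕ} (hl : l < d) {x : E} (hx : x ∉ Zk A0 kap b0 f h l) :
    fib (L f l) ((Zk A0 kap b0 f h (l + 1)).indicator 1) x
      ≤ ENNReal.ofReal (kap * (1 + 3 * Real.exp (-h ^ 2 / 2)) / b0) * cap A0 kap f h l x := by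
  have he := (Real.exp_pos (-h ^ 2 / 2)).le
  have h1 : fib (L f l) ((Zk A0 kap b0 f h (l + 1)).indicator 1) x
      ≤ fib (L f l) (fun y => ENNReal.ofReal (1 / b0) * cap A0 kap f h (l + 1) y) x := by
    unfold fib
    apply lintegral_mono
    intro z
    simp only
    by_cases hz : mix (L f l) x z ∈ Zk A0 kap b0 f h (l + 1)
    · rw [indicator_of_mem hz]
      rw [Zk_succ] at hz
      rcases hz with hz | hz
      · exfalso
        apply hx
        have h2 : mix (L f l) x z - x ∈ (L f l)ᗮ := by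
          rw [← Submodule.starProjection_apply_eq_zero_iff, map_sub, starProjection_mix, sub_self]
        have h3 := (cyl_Zk (A0 := A0) (kap := kap) (b0 := b0) (h := h) le_rfl x h2).1
        rw [add_sub_cancel] at h3
        exact h3 hz
      · unfold cap
        rw [← ENNReal.ofReal_mul (by positivity)]
        change (1 : ℝ≥0∞) ≤ _
        rw [← ENNReal.ofReal_one]
        apply ENNReal.ofReal_le_ofReal
        have : b0 < capR A0 kap f h (l + 1) (mix (L f l) x z) := hz
        rw [one_div, ← div_eq_inv_mul, le_div_iff₀ hb]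
        linarith
    · rw [indicator_of_notMem hz]
      exact zero_le
  refine h1.trans ?_
  rw [fib_mul (inv_const _ _) (measurable_cap _)]
  have h2 := fib_cap_le (A0 := A0) (kap := kap) (h := h) hf hA hkap hh (Nat.le_succ l) (by omega) x
  rw [Nat.succ_sub le_rfl, Nat.sub_self, pow_one] at h2
  calc ENNReal.ofReal (1 / b0) * fib (L f l) (cap A0 kap f h (l + 1)) x
      ≤ ENNReal.ofReal (1 / b0) * (ENNReal.ofReal (kap * (1 + 3 * Real.exp (-h ^ 2 / 2)))
        * cap A0 kap f h l x) := by gcongr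
    _ = _ := by
      rw [← mul_assoc, ← ENNReal.ofReal_mul (by positivity)]
      congr 2
      ring

/-- **(A2)** caps and killed labels together -/
theorem fib_cap_add_Zk (hf : ONB f d) (hA : 0 ≤ A0) (hkap : 0 ≤ kap) (hh : 0 ≤ h) (hb : 0 < b0)
    {l : ℕ} (hl : l < d) {x : E} (hx : x ∉ Zk A0 kap b0 f h l) :
    fib (L f l) (fun y => cap A0 kap f h (l + 1) y
        + (Zk A0 kap b0 f h (l + 1)).indicator 1 y) x
      ≤ ENNReal.ofReal (kap * (1 + 3 * Real.exp (-h ^ 2 / 2)) * (1 + 1 / b0))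
        * cap A0 kap f h l x := by
  have he := (Real.exp_pos (-h ^ 2 / 2)).le
  rw [fib_add (measurable_cap _)]
  have h2 := fib_cap_le (A0 := A0) (kap := kap) (h := h) hf hA hkap hh (Nat.le_succ l) (by omega) x
  rw [Nat.succ_sub le_rfl, Nat.sub_self, pow_one] at h2
  refine (add_le_add h2 (fib_Zk_succ hf hA hkap hh hb hl hx)).trans (le_of_eq ?_)
  rw [← add_mul, ← ENNReal.ofReal_add (by positivity) (by positivity)]
  congr 2
  ring

/-- all deeper killed labels: mass `≤ (Σ_{m ≥ 1} κ'^m / b0) cap` -/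
theorem fib_Zk (hf : ONB f d) (hA : 0 ≤ A0) (hkap : 0 ≤ kap) (hh : 0 ≤ h) (hb : 0 < b0)
    {l : ℕ} (m : ℕ) (hl : l + m ≤ d) {x : E} (hx : x ∉ Zk A0 kap b0 f h l) :
    fib (L f l) ((Zk A0 kap b0 f h (l + m)).indicator 1) x
      ≤ ENNReal.ofReal ((∑ i ∈ Finset.range m, (kap * (1 + 3 * Real.exp (-h ^ 2 / 2))) ^ (i + 1))
        / b0) * cap A0 kap f h l x := by
  have he := (Real.exp_pos (-h ^ 2 / 2)).le
  have hinv : 0 ≤ kap * (1 + 3 * Real.exp (-h ^ 2 / 2)) := by positivity
  induction m with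
  | zero =>
    have : fib (L f l) ((Zk A0 kap b0 f h (l + 0)).indicator 1) x = 0 := by
      unfold fib
      have : ∀ z, (Zk A0 kap b0 f h (l + 0)).indicator (1 : E → ℝ≥0∞) (mix (L f l) x z) = 0 := by
        intro z
        rw [indicator_of_notMem]
        intro hz
        apply hx
        have h2 : mix (L f l) x z - x ∈ (L f l)ᗮ := by
          rw [← Submodule.starProjection_apply_eq_zero_iff, map_sub, starProjection_mix, sub_self]
        have h3 := (cyl_Zk (A0 := A0) (kap := kap) (b0 := b0) (h := h) le_rfl x h2).1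
        rw [add_sub_cancel] at h3
        exact h3 hz
      exact (lintegral_congr this).trans lintegral_zero
    rw [this]
    exact zero_le
  | succ m ih =>
    have h1 := ih (by omega)
    have h2 : fib (L f l) ((Zk A0 kap b0 f h (l + (m + 1))).indicator 1) x
        ≤ fib (L f l) (fun y => (Zk A0 kap b0 f h (l + m)).indicator 1 y
          + ENNReal.ofReal (1 / b0) * cap A0 kap f h (l + (m + 1)) y) x := by
      apply fib_mono
      intro y
      by_cases hy : y ∈ Zk A0 kap b0 f h (l + (m + 1))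
      · rw [indicator_of_mem hy]
        have hy' : y ∈ Zk A0 kap b0 f h (l + m + 1) := hy
        rw [Zk_succ] at hy'
        rcases hy' with hy' | hy'
        · rw [indicator_of_mem hy']
          exact le_self_add
        · refine le_trans ?_ le_add_self
          unfold cap
          rw [← ENNReal.ofReal_mul (by positivity)]
          change (1 : ℝ≥0∞) ≤ _
          rw [← ENNReal.ofReal_one]
          apply ENNReal.ofReal_le_ofReal
          have : b0 < capR A0 kap f h (l + (m + 1)) y := hy'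
          rw [one_div, ← div_eq_inv_mul, le_div_iff₀ hb]
          linarith
      · rw [indicator_of_notMem hy]
        exact zero_le
    refine h2.trans ?_
    rw [fib_add_right ((measurable_cap _).const_mul _), fib_mul (inv_const _ _) (measurable_cap _)]
    have h3 := fib_cap_le (A0 := A0) (kap := kap) (h := h) hf hA hkap hh
      (Nat.le_add_right l (m + 1)) hl x
    rw [Nat.add_sub_cancel_left] at h3
    calc fib (L f l) ((Zk A0 kap b0 f h (l + m)).indicator 1) x
        + ENNReal.ofReal (1 / b0) * fib (L f l) (cap A0 kap f h (l + (m + 1))) x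
        ≤ ENNReal.ofReal ((∑ i ∈ Finset.range m,
            (kap * (1 + 3 * Real.exp (-h ^ 2 / 2))) ^ (i + 1)) / b0) * cap A0 kap f h l x
          + ENNReal.ofReal (1 / b0) * (ENNReal.ofReal
            ((kap * (1 + 3 * Real.exp (-h ^ 2 / 2))) ^ (m + 1)) * cap A0 kap f h l x) := by
          gcongr
      _ = _ := by
          rw [← mul_assoc, ← add_mul, ← ENNReal.ofReal_mul (by positivity),
            ← ENNReal.ofReal_add (div_nonneg (Finset.sum_nonneg fun i _ => pow_nonneg hinv _) hb.le)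
              (mul_nonneg (by positivity) (pow_nonneg hinv _)), Finset.sum_range_succ]
          congr 2
          ring

/-! ### (P): the box of the coordinates between two levels -/

/-- `|⟪f k, z⟫| ≤ h` for `i ≤ k < j` -/
def Cb (f : ℕ → E) (h : ℝ) (i j : ℕ) : Set E := {z | ∀ k, i ≤ k → k < j → |⟪f k, z⟫| ≤ h}

omit [FiniteDimensional ℝ E] [MeasurableSpace E] [BorelSpace E] in
lemma Cb_eq (i j : ℕ) : Cb f h i j = ⋂ k ∈ Finset.Ico i j, {z : E | |⟪f k, z⟫| ≤ h} := by
  ext z
  simp only [Cb, mem_setOf_eq, Finset.mem_Ico, mem_iInter, and_imp]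

omit [FiniteDimensional ℝ E] [MeasurableSpace E] [BorelSpace E] in
lemma isClosed_Cb (i j : ℕ) : IsClosed (Cb f h i j) := by
  rw [Cb_eq]
  refine isClosed_biInter fun k _ => isClosed_le ?_ continuous_const
  exact (continuous_const.inner continuous_id).abs

omit [FiniteDimensional ℝ E] [MeasurableSpace E] [BorelSpace E] in
lemma convex_Cb (i j : ℕ) : Convex ℝ (Cb f h i j) := by
  intro x hx y hy a b ha hb hab k hk1 hk2
  rw [inner_add_right, inner_smul_right, inner_smul_right]
  have h1 := hx k hk1 hk2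
  have h2 := hy k hk1 hk2
  calc |a * ⟪f k, x⟫ + b * ⟪f k, y⟫| ≤ |a * ⟪f k, x⟫| + |b * ⟪f k, y⟫| := abs_add_le _ _
    _ = a * |⟪f k, x⟫| + b * |⟪f k, y⟫| := by rw [abs_mul, abs_mul, abs_of_nonneg ha, abs_of_nonneg hb]
    _ ≤ a * h + b * h := by gcongr
    _ = h := by rw [← add_mul, hab, one_mul]

/-- **(P)** -/
theorem mix_mem_Box (hf : ONB f d) {i j : ℕ} (hj : j ≤ d) {p z : E} (hp : p ∈ Box f h i)
    (hz : z ∈ Cb f h i j) : mix (L f i) p z ∈ Box f h j := by
  intro k hk
  rcases lt_or_ge k i with h1 | h1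
  · rw [inner_mix_lt h1]; exact hp k h1
  · rw [inner_mix_ge hf h1 (by omega)]; exact hz k h1 hk

/-- the excess over the box splits -/
theorem rr_mix (hf : ONB f d) {i j : ℕ} (hij : i ≤ j) (hj : j ≤ d) (x z : E) :
    rr f h j (mix (L f i) x z) = rr f h i x + ∑ k ∈ Finset.Ico i j, ex h ⟪f k, z⟫ ^ 2 := by
  unfold rr
  rw [Finset.range_eq_Ico, ← Finset.sum_Ico_consecutive _ (Nat.zero_le i) hij,
    ← Finset.range_eq_Ico]
  congr 1
  · exact Finset.sum_congr rfl fun k hk => by rw [inner_mix_lt (Finset.mem_range.1 hk)]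
  · refine Finset.sum_congr rfl fun k hk => ?_
    have := Finset.mem_Ico.1 hk
    rw [inner_mix_ge hf this.1 (by omega)]

/-- below a label the caps are flat on `Cb` -/
theorem capR_mix_of_mem (hf : ONB f d) {i j : ℕ} (hij : i ≤ j) (hj : j ≤ d) (x : E) {z : E}
    (hz : z ∈ Cb f h i j) :
    capR A0 kap f h j (mix (L f i) x z) = kap ^ (j - i) * capR A0 kap f h i x := by
  unfold capR
  rw [rr_mix hf hij hj]
  have : ∑ k ∈ Finset.Ico i j, ex h ⟪f k, z⟫ ^ 2 = 0 :=
    Finset.sum_eq_zero fun k hk => by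
      have := Finset.mem_Ico.1 hk
      rw [ex_of_le (hz k this.1 this.2)]; ring
  rw [this, add_zero]
  obtain ⟨m, rfl⟩ := Nat.exists_eq_add_of_le hij
  rw [Nat.add_sub_cancel_left, pow_add]
  ring

/-- **(P), mass** -/
theorem gauss_Cb_compl (hf : ONB f d) (hh : 0 ≤ h) {i j : ℕ} (hj : j ≤ d) :
    stdGaussian E (Cb f h i j)ᶜ ≤ ENNReal.ofReal (2 * (j - i : ℕ) * Real.exp (-h ^ 2 / 2)) := by
  have e : (Cb f h i j)ᶜ = ⋃ k ∈ Finset.Ico i j, {z : E | |⟪f k, z⟫| ≤ h}ᶜ := by
    rw [Cb_eq, compl_iInter₂]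
  have he := (Real.exp_pos (-h ^ 2 / 2)).le
  rw [e]
  refine (measure_biUnion_finset_le _ _).trans ?_
  have : ∀ k ∈ Finset.Ico i j, stdGaussian E {z : E | |⟪f k, z⟫| ≤ h}ᶜ
      ≤ ENNReal.ofReal (2 * Real.exp (-h ^ 2 / 2)) := by
    intro k hk
    have hk' := Finset.mem_Ico.1 hk
    have hm : Measurable fun z : E => ⟪f k, z⟫ := by fun_prop
    have hs : MeasurableSet {s : ℝ | ¬ |s| ≤ h} :=
      (measurableSet_le continuous_abs.measurable measurable_const).compl
    have e1 : {z : E | |⟪f k, z⟫| ≤ h}ᶜ = (fun z : E => ⟪f k, z⟫) ⁻¹' {s : ℝ | ¬ |s| ≤ h} := rfl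
    rw [e1, ← Measure.map_apply hm hs, H59.map_inner_std (hf.norm k (by omega))]
    exact H59.tail_two hh fun s hs => (not_le.1 hs).le
  refine (Finset.sum_le_sum this).trans (le_of_eq ?_)
  rw [Finset.sum_const, Nat.card_Ico, nsmul_eq_mul, ← ENNReal.ofReal_natCast,
    ← ENNReal.ofReal_mul (by positivity)]
  congr 1
  ring

/-! ### the radius -/

/-- a label which is not killed has norm at most `R1` -/
theorem norm_sq_le_of_capR_le (hf : ONB f d) (hh : 0 ≤ h) (hA : 0 < A0) (hkap : 0 < kap)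
    (hkap1 : kap ≤ 1) (hb : 0 < b0) {j : ℕ} (hj : j ≤ d) {x : E}
    (hx : capR A0 kap f h j x ≤ b0) :
    ‖(L f j).starProjection x‖ ^ 2
      ≤ 2 * d * h ^ 2 + 16 * (d * Real.log (1 / kap) + Real.log (b0 / A0)) := by
  have h1 := norm_sq_le_rr hf hj hh x
  have h2 : rr f h j x / 8 ≤ d * Real.log (1 / kap) + Real.log (b0 / A0) := by
    unfold capR at hx
    have h3 : Real.exp (rr f h j x / 8) ≤ b0 / A0 * (1 / kap) ^ j := by
      rw [one_div, inv_pow, ← div_eq_mul_inv, div_div, le_div_iff₀ (by positivity)]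
      linarith
    have h4 : rr f h j x / 8 ≤ Real.log (b0 / A0 * (1 / kap) ^ j) := by
      rw [← Real.log_exp (rr f h j x / 8)]
      exact Real.log_le_log (Real.exp_pos _) h3
    rw [Real.log_mul (by positivity) (by positivity), Real.log_pow] at h4
    have h5 : 0 ≤ Real.log (1 / kap) := Real.log_nonneg (by
      rw [one_div]; exact (one_le_inv₀ hkap).2 hkap1)
    have h6 : (j : ℝ) ≤ d := by exact_mod_cast hj
    nlinarith
  have h7 : (j : ℝ) ≤ d := by exact_mod_cast hj
  have h8 : 0 ≤ h ^ 2 := sq_nonneg h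
  nlinarith

/-- **OnLine**: the cap of every label which is not killed is at least the exponential of RIM -/
theorem onLine_capR (hf : ONB f d) (hh : 0 ≤ h) (hA : 0 < A0) (hkap : 0 < kap)
    (hkap1 : kap ≤ 1) (hb : 0 < b0) {j : ℕ} (hj : j ≤ d) {R Lam : ℝ}
    (hR : 2 * d * h ^ 2 + 16 * (d * Real.log (1 / kap) + Real.log (b0 / A0))
      + 8 * (d * Real.log (1 / kap) + Real.log (1 / A0) + Lam) ≤ R ^ 2) {x : E}
    (hx : capR A0 kap f h j x ≤ b0) :
    Real.exp (-(1 / 8 * (R ^ 2 - ‖(L f j).starProjection x‖ ^ 2) - Lam))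
      ≤ capR A0 kap f h j x := by
  have h1 := norm_sq_le_of_capR_le hf hh hA hkap hkap1 hb hj hx
  refine le_trans ?_ (le_capR hA.le hkap.le j x)
  have h5 : 0 ≤ Real.log (1 / kap) := Real.log_nonneg (by
    rw [one_div]; exact (one_le_inv₀ hkap).2 hkap1)
  have h6 : (j : ℝ) ≤ d := by exact_mod_cast hj
  have e : A0 * kap ^ j = Real.exp (-(Real.log (1 / A0) + j * Real.log (1 / kap))) := by
    rw [one_div, one_div, Real.log_inv, Real.log_inv, neg_add, neg_neg, mul_neg, neg_neg,
      Real.exp_add, Real.exp_log hA, Real.exp_nat_mul, Real.exp_log hkap]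
  rw [e]
  apply Real.exp_le_exp.2
  nlinarith

end prob

end Vale.Agent.P262.H924
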