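import Vale.Agent.P262.M2.Blocks

/-!
# P262, milestone 2: monotonicity of the Props of `M2/Blocks` in their constants
-/

set_option linter.all false

open MeasureTheory ProbabilityTheory Set
open scoped ENNReal

namespace Vale.Agent.P262.M2.Sys

variable {E : Type*} [NormedAddCommGroup E] [InnerProductSpace ℝ E] [FiniteDimensional ℝ E]
  [MeasurableSpace E] [BorelSpace E] {S : Sys E}

lemma rhs_mono {CT CT' lam lam' ph : ℝ} (hCT : 0 ≤ CT) (h1 : CT ≤ CT') (hl : 0 ≤ lam)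
    (h2 : lam ≤ lam') (hph : 0 ≤ ph) (k : ℕ) :
    ENNReal.ofReal (CT * ph * lam ^ k) ≤ ENNReal.ofReal (CT' * ph * lam' ^ k) := by
  apply ENNReal.ofReal_le_ofReal
  have : lam ^ k ≤ lam' ^ k := pow_le_pow_left₀ hl h2 k
  have h3 : 0 ≤ lam ^ k := pow_nonneg hl k
  have h4 : 0 ≤ CT' := hCT.trans h1
  gcongr

theorem THRp.mono9 {CT CT' lam lam' : ℝ} (h : S.THRp CT lam) (hCT : 0 ≤ CT) (h1 : CT ≤ CT')
    (hl : 0 ≤ lam) (h2 : lam ≤ lam') : S.THRp CT' lam' := by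
  intro m hm hr c p hj hc i hi hi'
  exact (h m hm hr c p hj hc i hi hi').trans
    (mul_le_mul_left (rhs_mono hCT h1 hl h2 (S.mv.ph_nonneg m) _) _)

theorem THR0.mono {CT CT' lam lam' : ℝ} (h : S.THR0 CT lam) (hCT : 0 ≤ CT) (h1 : CT ≤ CT')
    (hl : 0 ≤ lam) (h2 : lam ≤ lam') : S.THR0 CT' lam' := by
  intro m hm hr p hj i hi hi'
  exact (h m hm hr p hj i hi hi').trans
    (mul_le_mul_left (rhs_mono hCT h1 hl h2 (S.mv.ph_nonneg m) _) _)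

theorem THR.mono {CT CT' lam lam' : ℝ} (h : S.THR CT lam) (hCT : 0 ≤ CT) (h1 : CT ≤ CT')
    (hl : 0 ≤ lam) (h2 : lam ≤ lam') : S.THR CT' lam' := by
  intro m hm hr j hj i hi hi'
  exact (h m hm hr j hj i hi hi').trans
    (mul_le_mul_left (rhs_mono hCT h1 hl h2 (S.mv.ph_nonneg m) _) _)

theorem HMOM.mono {H : ℕ → E → ℝ≥0∞} {CT CT' lam lam' : ℝ} (h : S.HMOM H CT lam) (hCT : 0 ≤ CT)
    (h1 : CT ≤ CT') (hl : 0 ≤ lam) (h2 : lam ≤ lam') : S.HMOM H CT' lam' := by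
  intro m hm hr j hj
  exact (h m hm hr j hj).trans
    (mul_le_mul_left (rhs_mono hCT h1 hl h2 (S.mv.ph_nonneg m) _) _)

lemma co_mono {C C' a a' : ℝ} (hC : 0 ≤ C) (h1 : C ≤ C') (ha : 0 ≤ a) (h2 : a ≤ a') (k : ℕ) :
    ENNReal.ofReal (C * a ^ k) ≤ ENNReal.ofReal (C' * a' ^ k) := by
  apply ENNReal.ofReal_le_ofReal
  have : a ^ k ≤ a' ^ k := pow_le_pow_left₀ ha h2 k
  have h3 : 0 ≤ a ^ k := pow_nonneg ha k
  have h4 : 0 ≤ C' := hC.trans h1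
  gcongr

theorem ROTI.mono {G : List ℕ → ℕ → E → ℝ≥0∞} {H : ℕ → E → ℝ≥0∞} {C C' a a' : ℝ}
    (h : S.ROTI G H C a) (hC : 0 ≤ C) (h1 : C ≤ C') (ha : 0 ≤ a) (h2 : a ≤ a') :
    S.ROTI G H C' a' := by
  intro m hm hr j hj l hl
  refine (h m hm hr j hj l hl).trans (add_le_add ?_ (Finset.sum_le_sum fun i _ => ?_))
  · exact mul_le_mul_left (co_mono hC h1 ha h2 _) _
  · exact mul_le_mul_left (co_mono hC h1 ha h2 _) _

theorem ROTO.mono {G : List ℕ → ℕ → E → ℝ≥0∞} {C C' a a' : ℝ}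
    (h : S.ROTO G C a) (hC : 0 ≤ C) (h1 : C ≤ C') (ha : 0 ≤ a) (h2 : a ≤ a') :
    S.ROTO G C' a' := by
  intro m hm hr j hj l hl hl'
  refine (h m hm hr j hj l hl hl').trans (Finset.sum_le_sum fun i _ => ?_)
  exact mul_le_mul_left (co_mono hC h1 ha h2 _) _

lemma sum_mono_b {ep ep' b b' : ℝ} (h1 : ep ≤ ep') (hb : 0 ≤ b) (h2 : b ≤ b') (l : ℕ) :
    ENNReal.ofReal ep * ∑ i ∈ Finset.Ico l S.nl, ENNReal.ofReal (b ^ (i - l)) * S.Ut i ≤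
    ENNReal.ofReal ep' * ∑ i ∈ Finset.Ico l S.nl, ENNReal.ofReal (b' ^ (i - l)) * S.Ut i := by
  refine mul_le_mul' (ENNReal.ofReal_le_ofReal h1) (Finset.sum_le_sum fun i _ => ?_)
  exact mul_le_mul_left (ENNReal.ofReal_le_ofReal (pow_le_pow_left₀ hb h2 _)) _

theorem REO.mono {G : List ℕ → ℕ → E → ℝ≥0∞} {ep ep' b b' : ℝ} (h : S.REO G ep b)
    (h1 : ep ≤ ep') (hb : 0 ≤ b) (h2 : b ≤ b') : S.REO G ep' b' :=
  fun l hl => (h l hl).trans (sum_mono_b h1 hb h2 l)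

theorem CVG.mono {ep ep' b b' : ℝ} (h : S.CVG ep b)
    (h1 : ep ≤ ep') (hb : 0 ≤ b) (h2 : b ≤ b') : S.CVG ep' b' :=
  fun l hl => (h l hl).trans (sum_mono_b h1 hb h2 l)

theorem CONS.mono {kp kp' : ℝ} (h : S.CONS kp) (h1 : kp ≤ kp') : S.CONS kp' :=
  fun l hl => (h l hl).trans (mul_le_mul_left (ENNReal.ofReal_le_ofReal h1) _)

theorem LBL2.mono {G : List ℕ → ℕ → E → ℝ≥0∞} {KU KU' : ℝ} (h : S.LBL2 G KU) (h1 : KU ≤ KU') :
    S.LBL2 G KU' := by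
  have h2 := ENNReal.ofReal_le_ofReal h1
  intro j hj m hm x hx
  rcases h j hj m hm x hx with h3 | ⟨h3, h4⟩
  · exact Or.inl (h3.trans (mul_le_mul_left h2 _))
  · exact Or.inr ⟨h3, h4.trans (add_le_add (mul_le_mul_left h2 _) (mul_le_mul_left h2 _))⟩

end Vale.Agent.P262.M2.Sys
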