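import Vale.Agent.P262.H44.L2Fin
import Vale.Agent.P262.H493.ConvD
import Vale.Agent.P262.H431.Thr10
import Vale.Agent.P262.M2.SumInt
import Vale.Agent.P262.M2.Price3
import Vale.Agent.P262.H654.ReP
import Vale.Agent.P262.M2.CloseB
import Vale.Agent.P262.M2.Param
import Vale.Agent.P262.H395.ChU3
import Vale.Agent.P262.H633.RotO2
import Vale.Agent.P262.H924.Mono

/-!
# P262, milestone 2: all numerical hypotheses of the blocks in one structure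
-/

set_option linter.all false

open MeasureTheory ProbabilityTheory Set
open scoped ENNReal

namespace Vale.Agent.P262.M2.Sys

variable {E : Type*} [NormedAddCommGroup E] [InnerProductSpace ℝ E] [FiniteDimensional ℝ E]
  [MeasurableSpace E] [BorelSpace E]

/-- the constant of the linear system -/
noncomputable def KKn (KU : ℝ) : ℝ := 6 * KU + 40 * 18 * (6 * KU + 1)

/-- the price constant of (IB) -/
noncomputable def epn (S : Sys E) (Cr a CT w : ℝ) : ℝ :=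
  3 * Cr * CT * a * w * (2 * Real.pi * S.c0 / S.δ) + 2 * S.kV + 2 * S.kV

/-- **all numerical hypotheses** -/
structure Num (S : Sys E) (KU Cr a CT w : ℝ) : Prop where
  th : S.th = 1 / 2
  consC : S.ConsC
  thrC : H431.ThrC S
  kr : S.kap ^ S.th ≤ S.ρ
  qq41 : 2 * (Real.sqrt 2 * Real.exp (-(S.qq / 4))) ≤ 1 / 41
  kp8 : S.kp 1 ≤ 1 / 8
  kpA : 16 * (S.M + 1) * S.kp 1 ≤ 1
  rim : S.RimC 1
  δ : S.δ ≤ 1 / 160000
  lbl : ∃ (q c : ℝ) (J : ℕ), S.LblN q c (4 * S.kp 1 * (S.M + 1)) J ∧ kL S.c0 q c J ≤ KU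
  KU0 : 0 ≤ KU
  Cr0 : 0 ≤ Cr
  a1 : 1 ≤ a
  CT0 : 0 ≤ CT
  w0 : 0 ≤ w
  w1 : w ≤ 1
  aw : 2 * a * w ≤ 1 / 2
  wρ : 3 * w ≤ S.ρ
  et : ∃ et : ℝ, 0 ≤ et ∧ et ≤ 1 ∧ 1 ≤ et * ((S.M / 4) ^ (1 - S.th) - 2) ∧ 640 * 18 * et ≤ 1
  big : (KKn KU + 1) * (2 * a * S.kC + 3 * S.epn Cr a CT w) ≤ 1 / 2
  big2 : 256 * (KKn KU + 1) * S.epn Cr a CT w ≤ 1

end Vale.Agent.P262.M2.Sys
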