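import Vale.Agent.P262.H924.Const2
import Vale.Agent.P262.H502.Mom

/-!
# P262, milestone 1: base of the choice of parameters (helper924)

`exists_base`: with `M = CM (d+1)`, `b0 = cb/(d+1)²`, `A0 = cA/(d+1)²`, `N = cN/(1+R)`,
`R = R0 √(d log (d+1))`: the cap parameter `k0` is smaller than any given power of
`Q = (1+R)(d+1)`.
-/

set_option linter.all false

open MeasureTheory ProbabilityTheory Set
open scoped ENNReal RealInnerProductSpace
open Vale.Agent.P262.H118 (L ONB)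
open Vale.Agent.P262.H395 (fib mix Inv)

namespace Vale.Agent.P262.H924

open Real

section tail

variable {E : Type*} [NormedAddCommGroup E] [InnerProductSpace ℝ E] [FiniteDimensional ℝ E]
  [MeasurableSpace E] [BorelSpace E]
variable {d : ℕ} {h A0 k0 b0 R : ℝ}

/-- **the mass outside the ball** is at most the cap of the root -/
theorem Par.tail (P : Par d h A0 k0 b0 R) (hd : Module.finrank ℝ E = d) (hk : k0 ≤ 1 / 2) :
    (stdGaussian E).real (Metric.closedBall (0 : E) R)ᶜ ≤ A0 := by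
  have h0 := H502.tail_proj (⊤ : Submodule ℝ E) (R ^ 2)
  have hs : (Metric.closedBall (0 : E) R)ᶜ ⊆ {z : E | R ^ 2 < ‖(⊤ : Submodule ℝ E).starProjection z‖ ^ 2} := by
    intro z hz
    rw [mem_compl_iff, Metric.mem_closedBall, dist_zero_right, not_le] at hz
    have e : (⊤ : Submodule ℝ E).starProjection z = z := by
      rw [Submodule.starProjection_eq_self_iff]; trivial
    rw [mem_setOf_eq, e]
    exact pow_lt_pow_left₀ hz P.hR (by norm_num)
  have h1 := (measure_mono hs).trans h0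
  rw [finrank_top, hd] at h1
  have e2 : (2 : ℝ≥0∞) ^ d * ENNReal.ofReal (exp (-(3 / 8 * R ^ 2)))
      = ENNReal.ofReal (2 ^ d * exp (-(3 / 8 * R ^ 2))) := by
    rw [ENNReal.ofReal_mul (by positivity), ENNReal.ofReal_pow (by norm_num)]
    simp
  rw [e2] at h1
  have h2 : (stdGaussian E).real (Metric.closedBall (0 : E) R)ᶜ ≤ 2 ^ d * exp (-(3 / 8 * R ^ 2)) :=
    ENNReal.toReal_le_of_le_ofReal (by positivity) h1
  refine h2.trans ?_
  have hlk : 0 ≤ log (1 / k0) := log_nonneg (by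
    rw [one_div]; exact (one_le_inv₀ P.hk).2 P.hk1)
  have hA1 : A0 ≤ 1 := P.hAb.trans P.hb1
  have hlA : 0 ≤ log (1 / A0) := log_nonneg (by rw [one_div]; exact (one_le_inv₀ P.hA).2 hA1)
  have hlb : 0 ≤ log (b0 / A0) := log_nonneg ((one_le_div P.hA).2 P.hAb)
  have h2k : log 2 ≤ log (1 / k0) := by
    apply log_le_log (by norm_num)
    rw [le_div_iff₀ P.hk]; linarith
  have h3 : (d : ℝ) * log 2 ≤ d * log (1 / k0) := mul_le_mul_of_nonneg_left h2k (by positivity)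
  have h4 := P.rad
  have h5 : (0 : ℝ) ≤ 2 * d * h ^ 2 := by positivity
  have h6 : 0 ≤ (d : ℝ) * log (1 / k0) := by positivity
  have e3 : (2 : ℝ) ^ d = exp (d * log 2) := by
    rw [exp_nat_mul, exp_log (by norm_num)]
  have e4 : A0 = exp (-log (1 / A0)) := by
    rw [one_div, log_inv, neg_neg, exp_log P.hA]
  rw [e3, ← exp_add]
  conv_rhs => rw [e4]
  apply exp_le_exp.2
  linarith

end tail

/-- **base of the choice of parameters** -/
theorem exists_base {CM cb cA cN η K : ℝ} (n : ℕ) (hcb : 0 < cb) (hcb1 : cb ≤ 1) (hcA : 0 < cA)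
    (hcA1 : cA ≤ cb) (hη : 0 < η) (hη1 : η ≤ 1) :
    ∃ R0 : ℝ, 1 ≤ R0 ∧ ∀ d : ℕ, 1 ≤ d → ∃ h k0 R : ℝ,
      R = R0 * sqrt (d * log ((d : ℝ) + 1)) ∧
      Par d h (cA / ((d : ℝ) + 1) ^ 2) k0 (cb / ((d : ℝ) + 1) ^ 2) R ∧
      6 * d * exp (-h ^ 2 / 2) ≤ η ∧ k0 ≤ 1 / 2 ∧
      kapB k0 (cb / ((d : ℝ) + 1) ^ 2) h ≤ 4 * k0 / (cb / ((d : ℝ) + 1) ^ 2) ∧
      K * ((1 + R) * ((d : ℝ) + 1)) ^ n * k0 ≤ 1 := by
  obtain ⟨R0, k, hR0, H⟩ := exists_params (max K 2) n n 0 (c3 := cb) (c4 := cA) (η := η) (C3 := 2)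
    (C4 := 2) hcb hcb1 hcA hcA1 hη hη1 le_rfl
  refine ⟨R0, hR0, fun d hd => ?_⟩
  obtain ⟨h1, h2, h3, h4⟩ := H d hd
  rw [pow_zero, mul_one] at h4
  have hR := h1.hR
  have hd' : (1 : ℝ) ≤ d := by exact_mod_cast hd
  have hQ : 1 ≤ ((1 + R0 * sqrt (d * log ((d : ℝ) + 1))) * ((d : ℝ) + 1)) ^ n :=
    one_le_pow₀ (by nlinarith)
  have h5 : max K 2 * ((1 + R0 * sqrt (d * log ((d : ℝ) + 1))) * ((d : ℝ) + 1)) ^ n * k d ≤ 1 := by
    rw [mul_pow, ← mul_assoc]; exact h4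
  have hk := h1.hk
  refine ⟨hh η d, k d, _, rfl, h1, h2, ?_, h3, ?_⟩
  · have h6 : 2 * k d ≤ max K 2 * ((1 + R0 * sqrt (d * log ((d : ℝ) + 1))) * ((d : ℝ) + 1)) ^ n * k d := by
      refine mul_le_mul_of_nonneg_right ?_ hk.le
      have := le_max_right K 2
      nlinarith
    linarith
  · refine le_trans ?_ h5
    refine mul_le_mul_of_nonneg_right ?_ hk.le
    exact mul_le_mul_of_nonneg_right (le_max_left _ _) (by linarith)

end Vale.Agent.P262.H924
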