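import Vale.Agent.P262.H118.K1
import Vale.Agent.P262.H395.Fib

/-!
# P262, milestone 1: box caps (block CAPS, helper924), part 1: deterministic facts

`f 0, f 1, …` orthonormal up to `d`, `L f j = span (f 0 … f (j-1))`.
`Box f h j = {x | |⟪f k, x⟫| ≤ h for all k < j}`, `rr f h j x = dist(x, Box f h j)^2`,
`capR A0 kap f h j x = A0 kap^j exp (rr/8)`, `Zk … j = {x | ∃ i ≤ j, b0 < capR … i x}`.
-/

set_option linter.all false

open MeasureTheory ProbabilityTheory Set
open scoped ENNReal RealInnerProductSpace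

namespace Vale.Agent.P262.H924

open Vale.Agent.P262.H118 Vale.Agent.P262.H395

section det

variable {E : Type*} [NormedAddCommGroup E] [InnerProductSpace ℝ E]

/-- excess over `[-h, h]` -/
noncomputable def ex (h s : ℝ) : ℝ := max (|s| - h) 0

lemma ex_nonneg (h s : ℝ) : 0 ≤ ex h s := le_max_right _ _

lemma ex_neg (h s : ℝ) : ex h (-s) = ex h s := by unfold ex; rw [abs_neg]

lemma ex_mono {h s t : ℝ} (hst : |s| ≤ |t|) : ex h s ≤ ex h t :=
  max_le_max (by linarith) le_rfl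

lemma ex_of_le {h s : ℝ} (hs : |s| ≤ h) : ex h s = 0 := max_eq_right (by linarith)

lemma ex_le_abs {h : ℝ} (hh : 0 ≤ h) (s : ℝ) : ex h s ≤ |s| :=
  max_le (by linarith) (abs_nonneg s)

lemma abs_le_add_ex (h s : ℝ) : |s| ≤ h + ex h s := by
  have := le_max_left (|s| - h) 0
  unfold ex; linarith

lemma continuous_ex (h : ℝ) : Continuous (ex h) := by
  unfold ex; fun_prop

lemma ex_add_le (h s t : ℝ) : ex h (s + t) ≤ ex h s + |t| := by
  unfold ex
  refine max_le ?_ (by positivity)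
  have h1 := abs_add_le s t
  have h2 := le_max_left (|s| - h) 0
  linarith

lemma convexOn_ex (h : ℝ) : ConvexOn ℝ univ (ex h) := by
  have h1 : ConvexOn ℝ univ fun s : ℝ => |s| := convexOn_univ_norm (E := ℝ)
  have h2 : ConvexOn ℝ univ fun s : ℝ => |s| + -h := h1.add_const (-h)
  have h3 := h2.sup (convexOn_const (0 : ℝ) convex_univ)
  exact h3

lemma convexOn_ex_sq (h : ℝ) : ConvexOn ℝ univ fun s => ex h s ^ 2 := by
  have := (convexOn_ex h).pow (fun s _ => ex_nonneg h s) 2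
  exact this

/-- the box -/
def Box (f : ℕ → E) (h : ℝ) (j : ℕ) : Set E := {x | ∀ k < j, |⟪f k, x⟫| ≤ h}

/-- the squared distance to the box -/
noncomputable def rr (f : ℕ → E) (h : ℝ) (j : ℕ) (x : E) : ℝ :=
  ∑ k ∈ Finset.range j, ex h ⟪f k, x⟫ ^ 2

/-- the caps (real valued) -/
noncomputable def capR (A0 kap : ℝ) (f : ℕ → E) (h : ℝ) (j : ℕ) (x : E) : ℝ :=
  A0 * kap ^ j * Real.exp (rr f h j x / 8)

/-- the caps -/
noncomputable def cap (A0 kap : ℝ) (f : ℕ → E) (h : ℝ) (j : ℕ) (x : E) : ℝ≥0∞ :=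
  ENNReal.ofReal (capR A0 kap f h j x)

/-- the killed labels -/
def Zk (A0 kap b0 : ℝ) (f : ℕ → E) (h : ℝ) (j : ℕ) : Set E :=
  {x | ∃ i ≤ j, b0 < capR A0 kap f h i x}

variable {f : ℕ → E} {h A0 kap b0 : ℝ}

lemma rr_nonneg (j : ℕ) (x : E) : 0 ≤ rr f h j x :=
  Finset.sum_nonneg fun _ _ => sq_nonneg _

@[simp] lemma rr_zero (x : E) : rr f h 0 x = 0 := by simp [rr]

lemma rr_succ (j : ℕ) (x : E) : rr f h (j + 1) x = rr f h j x + ex h ⟪f j, x⟫ ^ 2 := by
  unfold rr; rw [Finset.sum_range_succ]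

lemma rr_mono {i j : ℕ} (hij : i ≤ j) (x : E) : rr f h i x ≤ rr f h j x :=
  Finset.sum_le_sum_of_subset_of_nonneg (Finset.range_subset_range.2 hij)
    fun _ _ _ => sq_nonneg _

lemma rr_box {j : ℕ} {x : E} (hx : x ∈ Box f h j) : rr f h j x = 0 :=
  Finset.sum_eq_zero fun k hk => by rw [ex_of_le (hx k (Finset.mem_range.1 hk))]; ring

lemma rr_neg (j : ℕ) (x : E) : rr f h j (-x) = rr f h j x := by
  unfold rr
  refine Finset.sum_congr rfl fun k _ => ?_
  rw [inner_neg_right, ex_neg]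

lemma rr_congr {j : ℕ} {x y : E} (hxy : ∀ k < j, ⟪f k, x⟫ = ⟪f k, y⟫) :
    rr f h j x = rr f h j y := by
  unfold rr
  exact Finset.sum_congr rfl fun k hk => by rw [hxy k (Finset.mem_range.1 hk)]

lemma continuous_rr (j : ℕ) : Continuous (rr f h j) := by
  unfold rr
  refine continuous_finset_sum _ fun k _ => ((continuous_ex h).comp ?_).pow 2
  exact continuous_const.inner continuous_id

lemma convexOn_rr (j : ℕ) : ConvexOn ℝ univ (rr f h j) := by
  induction j with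
  | zero =>
    have : rr f h 0 = fun _ => 0 := by funext x; simp
    rw [this]
    exact convexOn_const 0 convex_univ
  | succ j ih =>
    have e : rr f h (j + 1) = fun x => rr f h j x + ex h ⟪f j, x⟫ ^ 2 := by
      funext x; exact rr_succ j x
    rw [e]
    refine ih.add ?_
    have := (convexOn_ex_sq h).comp_linearMap (innerₛₗ ℝ (f j))
    exact this

/-- `f k` for `k < j` is orthogonal to `(L f j)ᗮ` -/
lemma inner_perp {j k : ℕ} (hk : k < j) {w : E} (hw : w ∈ (L f j)ᗮ) : ⟪f k, w⟫ = 0 :=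
  (Submodule.mem_orthogonal _ _).1 hw _ (mem_L f hk)

lemma rr_add_perp {j i : ℕ} (hij : i ≤ j) (x : E) {w : E} (hw : w ∈ (L f j)ᗮ) :
    rr f h i (x + w) = rr f h i x :=
  rr_congr fun k hk => by rw [inner_add_right, inner_perp (lt_of_lt_of_le hk hij) hw, add_zero]

/-! ### the caps -/

lemma capR_pos (hA : 0 < A0) (hk : 0 < kap) (j : ℕ) (x : E) : 0 < capR A0 kap f h j x := by
  unfold capR; positivity

lemma capR_nonneg (hA : 0 ≤ A0) (hk : 0 ≤ kap) (j : ℕ) (x : E) : 0 ≤ capR A0 kap f h j x := by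
  unfold capR; positivity

lemma le_capR (hA : 0 ≤ A0) (hk : 0 ≤ kap) (j : ℕ) (x : E) :
    A0 * kap ^ j ≤ capR A0 kap f h j x := by
  unfold capR
  have h1 : 1 ≤ Real.exp (rr f h j x / 8) :=
    Real.one_le_exp (div_nonneg (rr_nonneg j x) (by norm_num))
  have h2 : 0 ≤ A0 * kap ^ j := by positivity
  nlinarith

@[simp] lemma capR_zero (x : E) : capR A0 kap f h 0 x = A0 := by simp [capR]

lemma capR_box {j : ℕ} {x : E} (hx : x ∈ Box f h j) : capR A0 kap f h j x = A0 * kap ^ j := by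
  unfold capR; rw [rr_box hx]; simp

lemma capR_succ (j : ℕ) (x : E) :
    capR A0 kap f h (j + 1) x
      = kap * Real.exp (ex h ⟪f j, x⟫ ^ 2 / 8) * capR A0 kap f h j x := by
  unfold capR
  rw [rr_succ, add_div, Real.exp_add]
  ring

lemma continuous_capR (j : ℕ) : Continuous (capR A0 kap f h j) := by
  unfold capR
  exact continuous_const.mul (Real.continuous_exp.comp ((continuous_rr j).div_const 8))

lemma capR_neg (j : ℕ) (x : E) : capR A0 kap f h j (-x) = capR A0 kap f h j x := by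
  unfold capR; rw [rr_neg]

lemma capR_congr {j : ℕ} {x y : E} (hxy : ∀ k < j, ⟪f k, x⟫ = ⟪f k, y⟫) :
    capR A0 kap f h j x = capR A0 kap f h j y := by
  unfold capR; rw [rr_congr hxy]

lemma capR_add_perp {j i : ℕ} (hij : i ≤ j) (x : E) {w : E} (hw : w ∈ (L f j)ᗮ) :
    capR A0 kap f h i (x + w) = capR A0 kap f h i x := by
  unfold capR; rw [rr_add_perp hij x hw]

lemma convexOn_capR (hA : 0 ≤ A0) (hk : 0 ≤ kap) (j : ℕ) :
    ConvexOn ℝ univ (capR A0 kap f h j) := by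
  have h1 : ConvexOn ℝ univ fun x : E => rr f h j x / 8 := by
    have := (convexOn_rr (f := f) (h := h) j).smul (c := (1 / 8 : ℝ)) (by norm_num)
    refine this.congr fun x _ => ?_
    simp only [smul_eq_mul]; ring
  have h2 : ConvexOn ℝ univ fun x : E => Real.exp (rr f h j x / 8) := by
    refine ⟨convex_univ, fun x _ y _ a b ha hb hab => ?_⟩
    refine (Real.exp_le_exp.2 (h1.2 (mem_univ x) (mem_univ y) ha hb hab)).trans ?_
    exact convexOn_exp.2 (mem_univ _) (mem_univ _) ha hb hab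
  have h3 := h2.smul (c := A0 * kap ^ j) (by positivity)
  exact h3

/-- `cap` is measurable -/
lemma measurable_cap [MeasurableSpace E] [BorelSpace E] (j : ℕ) :
    Measurable (cap A0 kap f h j) :=
  ((continuous_capR j).measurable).ennreal_ofReal

lemma inv_cap {j i : ℕ} (hij : i ≤ j) : Inv (L f j) (cap A0 kap f h i) := fun x w hw => by
  unfold cap; rw [capR_add_perp hij x hw]

/-! ### the killed labels -/

lemma Zk_mono {i j : ℕ} (hij : i ≤ j) : Zk A0 kap b0 f h i ⊆ Zk A0 kap b0 f h j := by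
  rintro x ⟨l, hl, hx⟩
  exact ⟨l, hl.trans hij, hx⟩

lemma notMem_Zk {j : ℕ} {x : E} :
    x ∉ Zk A0 kap b0 f h j ↔ ∀ i ≤ j, capR A0 kap f h i x ≤ b0 := by
  simp only [Zk, mem_setOf_eq, not_exists, not_and, not_lt]

lemma Zk_compl (j : ℕ) : (Zk A0 kap b0 f h j)ᶜ = ⋂ i : Fin (j + 1), {x | capR A0 kap f h i x ≤ b0} := by
  ext x
  rw [mem_compl_iff, notMem_Zk, mem_iInter]
  constructor
  · intro hx i
    exact hx i (by omega)
  · intro hx i hi
    exact hx ⟨i, by omega⟩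

lemma capR_le {i j : ℕ} (hij : i ≤ j) {x : E} (hx : x ∉ Zk A0 kap b0 f h j) :
    capR A0 kap f h i x ≤ b0 := notMem_Zk.1 hx i hij

lemma cap_le {i j : ℕ} (hij : i ≤ j) {x : E} (hx : x ∉ Zk A0 kap b0 f h j) :
    cap A0 kap f h i x ≤ ENNReal.ofReal b0 := ENNReal.ofReal_le_ofReal (capR_le hij hx)

lemma isClosed_Zk_compl (j : ℕ) : IsClosed (Zk A0 kap b0 f h j)ᶜ := by
  rw [Zk_compl]
  exact isClosed_iInter fun i => isClosed_le (continuous_capR _) continuous_const

lemma convex_Zk_compl (hA : 0 ≤ A0) (hk : 0 ≤ kap) (j : ℕ) :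
    Convex ℝ (Zk A0 kap b0 f h j)ᶜ := by
  rw [Zk_compl]
  refine convex_iInter fun i => ?_
  have := (convexOn_capR (f := f) (h := h) hA hk i).convex_le b0
  simpa using this

lemma measurableSet_Zk [MeasurableSpace E] [BorelSpace E] (j : ℕ) :
    MeasurableSet (Zk A0 kap b0 f h j) := by
  simpa using (isClosed_Zk_compl (A0 := A0) (kap := kap) (b0 := b0) (f := f) (h := h)
    j).measurableSet.compl

/-- cylinder over `L f j` -/
lemma cyl_Zk {i j : ℕ} (hij : i ≤ j) (x : E) {w : E} (hw : w ∈ (L f j)ᗮ) :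
    x + w ∈ Zk A0 kap b0 f h i ↔ x ∈ Zk A0 kap b0 f h i := by
  simp only [Zk, mem_setOf_eq]
  refine exists_congr fun l => and_congr_right fun hl => ?_
  rw [capR_add_perp (hl.trans hij) x hw]

lemma neg_mem_Zk {j : ℕ} {x : E} :
    -x ∈ Zk A0 kap b0 f h j ↔ x ∈ Zk A0 kap b0 f h j := by
  simp only [Zk, mem_setOf_eq, capR_neg]

/-- labels in the box are not killed -/
lemma notMem_Zk_of_box (hA : 0 ≤ A0) (hk : 0 ≤ kap) (hk1 : kap ≤ 1) (hb : A0 ≤ b0) {j : ℕ}
    {x : E} (hx : x ∈ Box f h j) : x ∉ Zk A0 kap b0 f h j := by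
  rw [notMem_Zk]
  intro i hi
  have hx' : x ∈ Box f h i := fun k hk => hx k (by omega)
  rw [capR_box hx']
  have : kap ^ i ≤ 1 := pow_le_one₀ hk hk1
  nlinarith

lemma zero_notMem_Zk (hh : 0 ≤ h) (hA : 0 ≤ A0) (hk : 0 ≤ kap) (hk1 : kap ≤ 1) (hb : A0 ≤ b0)
    (j : ℕ) : (0 : E) ∉ Zk A0 kap b0 f h j :=
  notMem_Zk_of_box hA hk hk1 hb fun k _ => by rw [inner_zero_right, abs_zero]; exact hh

/-- `Zk (j+1)` is `Zk j` together with the labels of level `j + 1` with a large cap -/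
lemma Zk_succ (j : ℕ) : Zk A0 kap b0 f h (j + 1)
    = Zk A0 kap b0 f h j ∪ {x | b0 < capR A0 kap f h (j + 1) x} := by
  ext x
  simp only [Zk, mem_setOf_eq, mem_union]
  constructor
  · rintro ⟨i, hi, hx⟩
    rcases Nat.lt_or_ge i (j + 1) with h1 | h1
    · exact Or.inl ⟨i, by omega, hx⟩
    · have : i = j + 1 := by omega
      subst this
      exact Or.inr hx
  · rintro (⟨i, hi, hx⟩ | hx)
    · exact ⟨i, by omega, hx⟩
    · exact ⟨j + 1, le_rfl, hx⟩

/-! ### lines -/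

/-- moving in a direction `f k`, `j ≤ k` -/
lemma capR_line_out {d : ℕ} (hf : ONB f d) {j k : ℕ} (hjk : j ≤ k) (hk : k < d) (x : E) (t : ℝ) :
    capR A0 kap f h j (x + t • f k) = capR A0 kap f h j x :=
  capR_congr fun l hl => by
    rw [inner_add_right, inner_smul_right, hf.orth l k (by omega) hk]; ring

lemma rr_line_in {d : ℕ} (hf : ONB f d) {j k : ℕ} (hk : k < j) (hj : j ≤ d) (x : E) (t : ℝ) :
    rr f h j (x + t • f k)
      = (rr f h j x - ex h ⟪f k, x⟫ ^ 2) + ex h (⟪f k, x⟫ + t) ^ 2 := by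
  unfold rr
  rw [← Finset.add_sum_erase _ _ (Finset.mem_range.2 hk),
    ← Finset.add_sum_erase (Finset.range j) (fun l => ex h ⟪f l, x⟫ ^ 2) (Finset.mem_range.2 hk)]
  have e1 : ⟪f k, x + t • f k⟫ = ⟪f k, x⟫ + t := by
    rw [inner_add_right, inner_smul_right, real_inner_self_eq_norm_sq, hf.norm k (by omega)]; ring
  have e2 : ∀ l ∈ (Finset.range j).erase k, ex h ⟪f l, x + t • f k⟫ ^ 2 = ex h ⟪f l, x⟫ ^ 2 := by
    intro l hl
    have hl1 := Finset.ne_of_mem_erase hl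
    have hl2 := Finset.mem_range.1 (Finset.mem_of_mem_erase hl)
    have : ⟪f l, f k⟫ = 0 := by
      rcases lt_or_gt_of_ne hl1 with h1 | h1
      · exact hf.orth l k h1 (by omega)
      · rw [real_inner_comm]; exact hf.orth k l h1 (by omega)
    rw [inner_add_right, inner_smul_right, this, mul_zero, add_zero]
  rw [e1, Finset.sum_congr rfl e2]
  ring

/-- monotone in the absolute value of the coordinate, on every label line -/
lemma capR_line_mono {d : ℕ} (hf : ONB f d) (hA : 0 ≤ A0) (hkap : 0 ≤ kap) {j k : ℕ} (hk : k < j)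
    (hj : j ≤ d) (x : E) {s t : ℝ} (hst : |⟪f k, x⟫ + s| ≤ |⟪f k, x⟫ + t|) :
    capR A0 kap f h j (x + s • f k) ≤ capR A0 kap f h j (x + t • f k) := by
  unfold capR
  have h0 : 0 ≤ A0 * kap ^ j := by positivity
  refine mul_le_mul_of_nonneg_left (Real.exp_le_exp.2 ?_) h0
  rw [rr_line_in hf hk hj, rr_line_in hf hk hj]
  have h1 : ex h (⟪f k, x⟫ + s) ^ 2 ≤ ex h (⟪f k, x⟫ + t) ^ 2 :=
    pow_le_pow_left₀ (ex_nonneg _ _) (ex_mono hst) 2
  linarith

/-! ### Bessel, distance to the box -/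

lemma ONB.inner_eq {d : ℕ} (hf : ONB f d) {k l : ℕ} (hk : k < d) (hl : l < d) :
    ⟪f k, f l⟫ = if k = l then 1 else 0 := by
  split_ifs with h1
  · subst h1
    rw [real_inner_self_eq_norm_sq, hf.norm k hk]; norm_num
  · rcases lt_or_gt_of_ne h1 with h2 | h2
    · exact hf.orth k l h2 hl
    · rw [real_inner_comm]; exact hf.orth l k h2 hk

lemma ONB.orthonormal {d : ℕ} (hf : ONB f d) {j : ℕ} (hj : j ≤ d) :
    Orthonormal ℝ fun k : Fin j => f k := by
  rw [orthonormal_iff_ite]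
  intro k l
  rw [ONB.inner_eq hf (by omega) (by omega)]
  simp [Fin.ext_iff]

lemma bessel {d : ℕ} (hf : ONB f d) {j : ℕ} (hj : j ≤ d) (x : E) :
    ∑ k ∈ Finset.range j, ⟪f k, x⟫ ^ 2 ≤ ‖x‖ ^ 2 := by
  have h1 := (ONB.orthonormal hf hj).sum_inner_products_le (x := x) (s := Finset.univ)
  have h2 : ∑ k : Fin j, ‖⟪f k, x⟫‖ ^ 2 = ∑ k ∈ Finset.range j, ⟪f k, x⟫ ^ 2 := by
    rw [Finset.sum_range]
    refine Finset.sum_congr rfl fun k _ => ?_
    rw [Real.norm_eq_abs, sq_abs]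
  rw [← h2]
  exact h1

/-- the projection to the flag -/
lemma starProjection_L [FiniteDimensional ℝ E] {d : ℕ} (hf : ONB f d) {j : ℕ} (hj : j ≤ d)
    (x : E) : (L f j).starProjection x = ∑ k ∈ Finset.range j, ⟪f k, x⟫ • f k := by
  apply Submodule.eq_starProjection_of_mem_of_inner_eq_zero
  · exact Submodule.sum_mem _ fun k hk => Submodule.smul_mem _ _ (mem_L f (Finset.mem_range.1 hk))
  · have key : ∀ i ≤ j, ∀ w ∈ L f i, ⟪x - ∑ k ∈ Finset.range j, ⟪f k, x⟫ • f k, w⟫ = 0 := by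
      intro i
      induction i with
      | zero =>
        intro _ w hw
        have : w = 0 := by simpa [L] using hw
        rw [this, inner_zero_right]
      | succ i ih =>
        intro hi w hw
        rw [L, Submodule.mem_sup] at hw
        obtain ⟨a, ha, b, hb, rfl⟩ := hw
        obtain ⟨c, rfl⟩ := Submodule.mem_span_singleton.1 hb
        rw [inner_add_right, ih (by omega) a ha, inner_smul_right, inner_sub_left, sum_inner]
        have : ∑ k ∈ Finset.range j, ⟪⟪f k, x⟫ • f k, f i⟫ = ⟪f i, x⟫ := by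
          rw [Finset.sum_eq_single i]
          · rw [real_inner_smul_left, ONB.inner_eq hf (by omega) (by omega)]; simp
          · intro k hk hki
            rw [real_inner_smul_left, ONB.inner_eq hf (by have := Finset.mem_range.1 hk; omega)
              (by omega), if_neg hki, mul_zero]
          · intro hi'
            exact absurd (Finset.mem_range.2 (by omega)) hi'
        rw [this, real_inner_comm x (f i)]
        ring
    exact fun w hw => key j le_rfl w hw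

lemma norm_sq_starProjection_L [FiniteDimensional ℝ E] {d : ℕ} (hf : ONB f d) {j : ℕ} (hj : j ≤ d)
    (x : E) : ‖(L f j).starProjection x‖ ^ 2 = ∑ k ∈ Finset.range j, ⟪f k, x⟫ ^ 2 := by
  have e : (L f j).starProjection x = ∑ k : Fin j, (⟪f k, x⟫ : ℝ) • f k := by
    rw [starProjection_L hf hj, Finset.sum_range]
  rw [e, ← real_inner_self_eq_norm_sq, (ONB.orthonormal hf hj).inner_sum, Finset.sum_range]
  refine Finset.sum_congr rfl fun k _ => ?_
  simp only [conj_trivial]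
  ring

/-- `|u|^2 ≤ 2 j h^2 + 2 rr` -/
lemma norm_sq_le_rr [FiniteDimensional ℝ E] {d : ℕ} (hf : ONB f d) {j : ℕ} (hj : j ≤ d) (hh : 0 ≤ h)
    (x : E) : ‖(L f j).starProjection x‖ ^ 2 ≤ 2 * j * h ^ 2 + 2 * rr f h j x := by
  rw [norm_sq_starProjection_L hf hj]
  have : ∀ k ∈ Finset.range j, ⟪f k, x⟫ ^ 2 ≤ 2 * h ^ 2 + 2 * ex h ⟪f k, x⟫ ^ 2 := by
    intro k _
    have h1 := abs_le_add_ex h ⟪f k, x⟫
    have h2 := ex_nonneg h ⟪f k, x⟫
    rw [← sq_abs ⟪f k, x⟫]
    nlinarith [abs_nonneg ⟪f k, x⟫, sq_nonneg (h - ex h ⟪f k, x⟫)]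
  refine (Finset.sum_le_sum this).trans (le_of_eq ?_)
  rw [Finset.sum_add_distrib, Finset.sum_const, Finset.card_range, ← Finset.mul_sum]
  unfold rr
  simp only [nsmul_eq_mul]
  ring

/-- `rr ≤ |x|^2` -/
lemma rr_le_norm_sq {d : ℕ} (hf : ONB f d) {j : ℕ} (hj : j ≤ d) (hh : 0 ≤ h) (x : E) :
    rr f h j x ≤ ‖x‖ ^ 2 := by
  refine le_trans ?_ (bessel hf hj x)
  unfold rr
  refine Finset.sum_le_sum fun k _ => ?_
  rw [← sq_abs ⟪f k, x⟫]
  exact pow_le_pow_left₀ (ex_nonneg _ _) (ex_le_abs hh _) 2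

/-- `√rr` is `1`-Lipschitz -/
lemma sqrt_rr_add_le {d : ℕ} (hf : ONB f d) {j : ℕ} (hj : j ≤ d) (x y : E) :
    Real.sqrt (rr f h j (x + y)) ≤ Real.sqrt (rr f h j x) + ‖y‖ := by
  have h1 : rr f h j (x + y) ≤ ∑ k ∈ Finset.range j, (ex h ⟪f k, x⟫ + |⟪f k, y⟫|) ^ 2 := by
    unfold rr
    refine Finset.sum_le_sum fun k _ => ?_
    rw [inner_add_right]
    exact pow_le_pow_left₀ (ex_nonneg _ _) (ex_add_le _ _ _) 2
  refine (Real.sqrt_le_sqrt h1).trans ?_
  -- Cauchy-Schwarz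
  set S := ∑ k ∈ Finset.range j, ex h ⟪f k, x⟫ * |⟪f k, y⟫| with hS
  have hy : ∑ k ∈ Finset.range j, |⟪f k, y⟫| ^ 2 ≤ ‖y‖ ^ 2 := by
    simpa only [sq_abs] using bessel hf hj y
  have hcs : S ≤ Real.sqrt (rr f h j x) * ‖y‖ := by
    have h2 := Real.sum_mul_le_sqrt_mul_sqrt (Finset.range j) (fun k => ex h ⟪f k, x⟫)
      (fun k => |⟪f k, y⟫|)
    refine h2.trans ?_
    refine mul_le_mul_of_nonneg_left ?_ (Real.sqrt_nonneg _)
    exact (Real.sqrt_le_sqrt hy).trans (le_of_eq (Real.sqrt_sq (norm_nonneg y)))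
  have h3 : ∑ k ∈ Finset.range j, (ex h ⟪f k, x⟫ + |⟪f k, y⟫|) ^ 2
      ≤ (Real.sqrt (rr f h j x) + ‖y‖) ^ 2 := by
    have e : ∑ k ∈ Finset.range j, (ex h ⟪f k, x⟫ + |⟪f k, y⟫|) ^ 2
        = rr f h j x + 2 * S + ∑ k ∈ Finset.range j, |⟪f k, y⟫| ^ 2 := by
      rw [hS, Finset.mul_sum]
      unfold rr
      rw [← Finset.sum_add_distrib, ← Finset.sum_add_distrib]
      refine Finset.sum_congr rfl fun k _ => ?_
      ring
    rw [e]
    have h4 := Real.sq_sqrt (rr_nonneg (f := f) (h := h) j x)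
    nlinarith
  refine (Real.sqrt_le_sqrt h3).trans (le_of_eq (Real.sqrt_sq ?_))
  have := norm_nonneg y
  have := Real.sqrt_nonneg (rr f h j x)
  linarith

/-- (A5): `cap (x + y) ≤ exp ((2 ‖x‖ ‖y‖ + ‖y‖^2)/8) cap x` -/
lemma capR_add_le {d : ℕ} (hf : ONB f d) (hA : 0 ≤ A0) (hkap : 0 ≤ kap) {j : ℕ} (hj : j ≤ d)
    (hh : 0 ≤ h) (x y : E) : capR A0 kap f h j (x + y)
      ≤ Real.exp ((2 * ‖x‖ * ‖y‖ + ‖y‖ ^ 2) / 8) * capR A0 kap f h j x := by
  have h1 := sqrt_rr_add_le (h := h) hf hj x y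
  have h2 : Real.sqrt (rr f h j x) ≤ ‖x‖ :=
    (Real.sqrt_le_sqrt (rr_le_norm_sq hf hj hh x)).trans (le_of_eq (Real.sqrt_sq (norm_nonneg x)))
  have h3 := Real.sq_sqrt (rr_nonneg (f := f) (h := h) j x)
  have h4 := Real.sq_sqrt (rr_nonneg (f := f) (h := h) j (x + y))
  have h5 := Real.sqrt_nonneg (rr f h j x)
  have h6 := Real.sqrt_nonneg (rr f h j (x + y))
  have hy := norm_nonneg y
  have h7 : rr f h j (x + y) ≤ rr f h j x + (2 * ‖x‖ * ‖y‖ + ‖y‖ ^ 2) := by nlinarith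
  have h0 : 0 ≤ A0 * kap ^ j := by positivity
  unfold capR
  calc A0 * kap ^ j * Real.exp (rr f h j (x + y) / 8)
      ≤ A0 * kap ^ j * Real.exp ((2 * ‖x‖ * ‖y‖ + ‖y‖ ^ 2) / 8 + rr f h j x / 8) := by
        refine mul_le_mul_of_nonneg_left (Real.exp_le_exp.2 ?_) h0
        linarith
    _ = _ := by rw [Real.exp_add]; ring

/-! ### the distance -/

/-- the nearest point of the box -/
noncomputable def near (f : ℕ → E) (h : ℝ) (j : ℕ) (x : E) : E :=
  x - ∑ k ∈ Finset.range j, (SignType.sign ⟪f k, x⟫ * ex h ⟪f k, x⟫ : ℝ) • f k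

lemma inner_near {d : ℕ} (hf : ONB f d) {j k : ℕ} (hk : k < j) (hj : j ≤ d) (x : E) :
    ⟪f k, near f h j x⟫ = ⟪f k, x⟫ - SignType.sign ⟪f k, x⟫ * ex h ⟪f k, x⟫ := by
  unfold near
  rw [inner_sub_right, inner_sum]
  congr 1
  rw [Finset.sum_eq_single k]
  · rw [inner_smul_right, ONB.inner_eq hf (by omega) (by omega)]; simp
  · intro l hl hlk
    rw [inner_smul_right, ONB.inner_eq hf (by omega) (by have := Finset.mem_range.1 hl; omega),
      if_neg (Ne.symm hlk), mul_zero]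
  · intro hk'
    exact absurd (Finset.mem_range.2 hk) hk'

lemma abs_sub_sign_ex (hh : 0 ≤ h) (s : ℝ) : |s - SignType.sign s * ex h s| ≤ h := by
  unfold ex
  rcases lt_trichotomy s 0 with hs | hs | hs
  · rw [sign_neg hs, abs_of_neg hs]
    simp only [SignType.neg_eq_neg_one, SignType.coe_neg, SignType.coe_one]
    rcases le_total (-s - h) 0 with h1 | h1
    · rw [max_eq_right h1, abs_le]; constructor <;> linarith
    · rw [max_eq_left h1, abs_le]; constructor <;> linarith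
  · subst hs; simp [hh]
  · rw [sign_pos hs, abs_of_pos hs]
    simp only [SignType.coe_one, one_mul]
    rcases le_total (s - h) 0 with h1 | h1
    · rw [max_eq_right h1, abs_le]; constructor <;> linarith
    · rw [max_eq_left h1, abs_le]; constructor <;> linarith

lemma near_mem {d : ℕ} (hf : ONB f d) {j : ℕ} (hj : j ≤ d) (hh : 0 ≤ h) (x : E) :
    near f h j x ∈ Box f h j := by
  intro k hk
  rw [inner_near hf hk hj]
  exact abs_sub_sign_ex hh _

lemma norm_sub_near {d : ℕ} (hf : ONB f d) {j : ℕ} (hj : j ≤ d) (hh : 0 ≤ h) (x : E) :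
    ‖x - near f h j x‖ ^ 2 = rr f h j x := by
  have e : x - near f h j x
      = ∑ k : Fin j, (SignType.sign ⟪f k, x⟫ * ex h ⟪f k, x⟫ : ℝ) • f k := by
    unfold near
    rw [sub_sub_cancel, Finset.sum_range]
  rw [e, ← real_inner_self_eq_norm_sq, (ONB.orthonormal hf hj).inner_sum]
  unfold rr
  rw [Finset.sum_range]
  refine Finset.sum_congr rfl fun k _ => ?_
  simp only [conj_trivial]
  have : (SignType.sign ⟪f k, x⟫ * ex h ⟪f k, x⟫ : ℝ) * (SignType.sign ⟪f k, x⟫ * ex h ⟪f k, x⟫)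
      = ex h ⟪f k, x⟫ ^ 2 := by
    rcases lt_trichotomy (⟪f k, x⟫ : ℝ) 0 with hs | hs | hs
    · rw [sign_neg hs]; simp; ring
    · rw [hs]
      have : ex h 0 = 0 := ex_of_le (by simpa using hh)
      rw [this]; simp
    · rw [sign_pos hs]; simp; ring
  exact this

lemma rr_le_norm_sub {d : ℕ} (hf : ONB f d) {j : ℕ} (hj : j ≤ d) {x y : E} (hy : y ∈ Box f h j) :
    rr f h j x ≤ ‖x - y‖ ^ 2 := by
  have h1 := sqrt_rr_add_le (h := h) hf hj y (x - y)
  rw [add_sub_cancel, rr_box hy, Real.sqrt_zero, zero_add] at h1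
  have h2 := Real.sq_sqrt (rr_nonneg (f := f) (h := h) j x)
  have h3 := Real.sqrt_nonneg (rr f h j x)
  nlinarith [norm_nonneg (x - y)]

/-- `rr` is the squared distance to the box -/
theorem infDist_box_sq {d : ℕ} (hf : ONB f d) {j : ℕ} (hj : j ≤ d) (hh : 0 ≤ h) (x : E) :
    Metric.infDist x (Box f h j) ^ 2 = rr f h j x := by
  have h1 : Metric.infDist x (Box f h j) = Real.sqrt (rr f h j x) := by
    apply le_antisymm
    · refine (Metric.infDist_le_dist_of_mem (near_mem hf hj hh x)).trans (le_of_eq ?_)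
      rw [dist_eq_norm, ← norm_sub_near hf hj hh x, Real.sqrt_sq (norm_nonneg _)]
    · have hne : (Box f h j).Nonempty := ⟨_, near_mem hf hj hh x⟩
      rw [Metric.le_infDist hne]
      intro y hy
      rw [dist_eq_norm]
      exact Real.sqrt_le_iff.2 ⟨norm_nonneg _, rr_le_norm_sub hf hj hy⟩
  rw [h1, Real.sq_sqrt (rr_nonneg j x)]

lemma isClosed_Box (j : ℕ) : IsClosed (Box f h j) := by
  have : Box f h j = ⋂ k : Fin j, {x | |⟪f k, x⟫| ≤ h} := by
    ext x
    simp only [Box, mem_setOf_eq, mem_iInter]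
    exact ⟨fun hx k => hx k k.2, fun hx k hk => hx ⟨k, hk⟩⟩
  rw [this]
  refine isClosed_iInter fun k => isClosed_le ?_ continuous_const
  exact (continuous_const.inner continuous_id).abs

lemma convex_Box (j : ℕ) : Convex ℝ (Box f h j) := by
  intro x hx y hy a b ha hb hab k hk
  rw [inner_add_right, inner_smul_right, inner_smul_right]
  have h1 := hx k hk
  have h2 := hy k hk
  calc |a * ⟪f k, x⟫ + b * ⟪f k, y⟫| ≤ |a * ⟪f k, x⟫| + |b * ⟪f k, y⟫| := abs_add_le _ _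
    _ = a * |⟪f k, x⟫| + b * |⟪f k, y⟫| := by rw [abs_mul, abs_mul, abs_of_nonneg ha, abs_of_nonneg hb]
    _ ≤ a * h + b * h := by gcongr
    _ = h := by rw [← add_mul, hab, one_mul]

lemma Box_antitone {i j : ℕ} (hij : i ≤ j) : Box f h j ⊆ Box f h i :=
  fun x hx k hk => hx k (by omega)

end det

end Vale.Agent.P262.H924
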