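import Mathlib

/-!
# P262, milestone 1: box caps (helper924), part 4: the radius is `O(√(d log d))`

With `kap = c2/(d+1)^C2`, `b0 = c3/(d+1)^C3`, `A0 = c4/(d+1)^C4`, `h² = 2 log (6 (d+1)/η)` the
radius condition of `onLine_capR` holds for `R² = R0² d log (d+1)`.
-/

set_option linter.all false

namespace Vale.Agent.P262.H924

open Real

/-- `h` -/
noncomputable def hh (η : ℝ) (d : ℕ) : ℝ := sqrt (2 * log (6 * (d + 1) / η))

lemma hh_nonneg (η : ℝ) (d : ℕ) : 0 ≤ hh η d := sqrt_nonneg _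

lemma hh_sq {η : ℝ} (hη : 0 < η) (hη1 : η ≤ 1) (d : ℕ) :
    hh η d ^ 2 = 2 * log (6 * (d + 1) / η) := by
  unfold hh
  rw [sq_sqrt]
  have h1 : 1 ≤ 6 * ((d : ℝ) + 1) / η := by
    rw [le_div_iff₀ hη]
    have : (0 : ℝ) ≤ d := Nat.cast_nonneg d
    linarith
  have := log_nonneg h1
  linarith

/-- the choice of `h` -/
theorem hh_spec {η : ℝ} (hη : 0 < η) (hη1 : η ≤ 1) (d : ℕ) :
    6 * d * exp (-(hh η d) ^ 2 / 2) ≤ η := by
  rw [hh_sq hη hη1]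
  have h0 : (0 : ℝ) ≤ d := Nat.cast_nonneg d
  have h1 : 0 < 6 * ((d : ℝ) + 1) / η := by positivity
  have e : -(2 * log (6 * ((d : ℝ) + 1) / η)) / 2 = - log (6 * ((d : ℝ) + 1) / η) := by ring
  rw [e, exp_neg, exp_log h1, inv_div]
  rw [mul_div_assoc']
  rw [div_le_iff₀ (by positivity)]
  nlinarith

/-- `log` of a quotient is at most a multiple of `log (d+1)` -/
lemma log_le_mul {c : ℝ} (hc : 0 < c) (C : ℕ) : ∃ K : ℝ, 0 ≤ K ∧ ∀ d : ℕ, 1 ≤ d →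
    log (c * ((d : ℝ) + 1) ^ C) ≤ K * log ((d : ℝ) + 1) := by
  refine ⟨C + |log c| / log 2, by have := log_pos (show (1 : ℝ) < 2 by norm_num); positivity, ?_⟩
  intro d hd
  have hd' : (1 : ℝ) ≤ d := by exact_mod_cast hd
  have h2 : 0 < log 2 := log_pos (by norm_num)
  have h3 : log 2 ≤ log ((d : ℝ) + 1) := log_le_log (by norm_num) (by linarith)
  rw [log_mul hc.ne' (by positivity), log_pow, add_mul, div_mul_eq_mul_div]
  have h4 : |log c| ≤ |log c| * log ((d : ℝ) + 1) / log 2 := by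
    rw [le_div_iff₀ h2]
    exact mul_le_mul_of_nonneg_left h3 (abs_nonneg _)
  have h5 := le_abs_self (log c)
  linarith

/-- **radius** -/
theorem radius_bound {c2 c3 c4 η : ℝ} (h2 : 0 < c2) (h3 : 0 < c3) (h4 : 0 < c4) (hη : 0 < η)
    (hη1 : η ≤ 1) (C2 C3 C4 : ℕ) (Lam : ℝ) : ∃ R0 : ℝ, 1 ≤ R0 ∧ ∀ d : ℕ, 1 ≤ d →
    2 * d * hh η d ^ 2 + 16 * (d * log (1 / (c2 / ((d : ℝ) + 1) ^ C2))
      + log (c3 / ((d : ℝ) + 1) ^ C3 / (c4 / ((d : ℝ) + 1) ^ C4)))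
      + 8 * (d * log (1 / (c2 / ((d : ℝ) + 1) ^ C2)) + log (1 / (c4 / ((d : ℝ) + 1) ^ C4)) + Lam)
      ≤ R0 ^ 2 * (d * log ((d : ℝ) + 1)) := by
  obtain ⟨K1, hK1, H1⟩ := log_le_mul (c := 6 / η) (by positivity) 1
  obtain ⟨K2, hK2, H2⟩ := log_le_mul (c := 1 / c2) (by positivity) C2
  obtain ⟨K3, hK3, H3⟩ := log_le_mul (c := c3 / c4) (by positivity) C4
  obtain ⟨K4, hK4, H4⟩ := log_le_mul (c := 1 / c4) (by positivity) C4
  have hl2 : 0 < log 2 := log_pos (by norm_num)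
  set S : ℝ := 4 * K1 + 24 * K2 + 16 * K3 + 8 * K4 + 8 * |Lam| / log 2 with hS
  have hS0 : 0 ≤ S := by positivity
  refine ⟨1 + S, by linarith, ?_⟩
  intro d hd
  have hd' : (1 : ℝ) ≤ d := by exact_mod_cast hd
  have hL : log 2 ≤ log ((d : ℝ) + 1) := log_le_log (by norm_num) (by linarith)
  have hL0 : 0 < log ((d : ℝ) + 1) := by linarith
  have hp : ∀ n : ℕ, 0 < ((d : ℝ) + 1) ^ n := fun n => by positivity
  have e1 : hh η d ^ 2 ≤ 2 * (K1 * log ((d : ℝ) + 1)) := by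
    rw [hh_sq hη hη1]
    have := H1 d hd
    rw [pow_one] at this
    have e : 6 * ((d : ℝ) + 1) / η = 6 / η * ((d : ℝ) + 1) := by ring
    rw [e]; linarith
  have e2 : log (1 / (c2 / ((d : ℝ) + 1) ^ C2)) ≤ K2 * log ((d : ℝ) + 1) := by
    have e : 1 / (c2 / ((d : ℝ) + 1) ^ C2) = 1 / c2 * ((d : ℝ) + 1) ^ C2 := by
      field_simp
    rw [e]; exact H2 d hd
  have e3 : log (c3 / ((d : ℝ) + 1) ^ C3 / (c4 / ((d : ℝ) + 1) ^ C4)) ≤ K3 * log ((d : ℝ) + 1) := by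
    refine le_trans (log_le_log (by positivity) ?_) (H3 d hd)
    rw [div_div_div_eq, div_le_iff₀ (by positivity)]
    have h1 : 1 ≤ ((d : ℝ) + 1) ^ C3 := one_le_pow₀ (by linarith)
    have e : c3 / c4 * ((d : ℝ) + 1) ^ C4 * (((d : ℝ) + 1) ^ C3 * c4)
        = c3 * ((d : ℝ) + 1) ^ C4 * ((d : ℝ) + 1) ^ C3 := by
      field_simp
    rw [e]
    have h5 : 0 ≤ c3 * ((d : ℝ) + 1) ^ C4 := by positivity
    nlinarith
  have e4 : log (1 / (c4 / ((d : ℝ) + 1) ^ C4)) ≤ K4 * log ((d : ℝ) + 1) := by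
    have e : 1 / (c4 / ((d : ℝ) + 1) ^ C4) = 1 / c4 * ((d : ℝ) + 1) ^ C4 := by
      field_simp
    rw [e]; exact H4 d hd
  have e5 : Lam ≤ |Lam| / log 2 * log ((d : ℝ) + 1) := by
    rw [div_mul_eq_mul_div, le_div_iff₀ hl2]
    have h5 := le_abs_self Lam
    have h6 := abs_nonneg Lam
    nlinarith
  set Ld := log ((d : ℝ) + 1) with hLd
  have f1 : K3 * Ld ≤ d * (K3 * Ld) := by
    have : 0 ≤ K3 * Ld := by positivity
    nlinarith
  have f2 : K4 * Ld ≤ d * (K4 * Ld) := by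
    have : 0 ≤ K4 * Ld := by positivity
    nlinarith
  have f3 : |Lam| / log 2 * Ld ≤ d * (|Lam| / log 2 * Ld) := by
    have : 0 ≤ |Lam| / log 2 * Ld := by positivity
    nlinarith
  have g1 : 2 * d * hh η d ^ 2 ≤ 2 * d * (2 * (K1 * Ld)) := by
    refine mul_le_mul_of_nonneg_left e1 (by positivity)
  have g2 : (d : ℝ) * log (1 / (c2 / ((d : ℝ) + 1) ^ C2)) ≤ d * (K2 * Ld) :=
    mul_le_mul_of_nonneg_left e2 (by positivity)
  have hfin : 2 * d * hh η d ^ 2 + 16 * (d * log (1 / (c2 / ((d : ℝ) + 1) ^ C2))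
      + log (c3 / ((d : ℝ) + 1) ^ C3 / (c4 / ((d : ℝ) + 1) ^ C4)))
      + 8 * (d * log (1 / (c2 / ((d : ℝ) + 1) ^ C2)) + log (1 / (c4 / ((d : ℝ) + 1) ^ C4)) + Lam)
      ≤ S * (d * Ld) := by
    rw [hS]
    have : (4 * K1 + 24 * K2 + 16 * K3 + 8 * K4 + 8 * |Lam| / log 2) * (d * Ld)
        = 2 * d * (2 * (K1 * Ld)) + 16 * (d * (K2 * Ld)) + 8 * (d * (K2 * Ld))
          + 16 * (d * (K3 * Ld)) + 8 * (d * (K4 * Ld)) + 8 * (d * (|Lam| / log 2 * Ld)) := by ring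
    rw [this]
    linarith
  refine hfin.trans (mul_le_mul_of_nonneg_right ?_ (by positivity))
  nlinarith

/-- `kap` times a power of `d` is small -/
lemma kap_mul_le {c2 : ℝ} (h2 : 0 ≤ c2) {C C2 : ℕ} (hC : C ≤ C2) (d : ℕ) :
    c2 / ((d : ℝ) + 1) ^ C2 * ((d : ℝ) + 1) ^ C ≤ c2 := by
  have hd : (0 : ℝ) ≤ d := Nat.cast_nonneg d
  have h1 : ((d : ℝ) + 1) ^ C ≤ ((d : ℝ) + 1) ^ C2 := pow_le_pow_right₀ (by linarith) hC
  rw [div_mul_eq_mul_div, div_le_iff₀ (by positivity)]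
  exact mul_le_mul_of_nonneg_left h1 h2

end Vale.Agent.P262.H924
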