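import Vale.Agent.P262.H924.Box3
import Vale.Agent.P262.H924.Const
import Vale.Agent.P262.M1.Blocks

/-!
# P262, milestone 1: the box caps as an instance of `M1.Caps` (helper924)

`capsBox : Caps f d R` with `A = capR A0 k0 f h`, `Z = Zk A0 k0 b0 f h`, `b0`, and
`kap = k0 (1 + 3 exp (-h²/2)) (1 + 1/b0)`; `exists_capsBox`: the choice of all constants
(`b0 = c3/(d+1)^C3`, `k0 = c2/(d+1)^C2`, `A0 = c4/(d+1)^C4`, `R = R0 √(d log (d+1))`).
-/

set_option linter.all false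

open MeasureTheory ProbabilityTheory Set
open scoped ENNReal RealInnerProductSpace
open Vale.Agent.P262.H118 (L ONB)
open Vale.Agent.P262.H395 (fib mix Inv)

namespace Vale.Agent.P262.H924

variable {E : Type*} [NormedAddCommGroup E] [InnerProductSpace ℝ E] [FiniteDimensional ℝ E]
  [MeasurableSpace E] [BorelSpace E]

variable {f : ℕ → E} {d : ℕ} {h A0 k0 b0 R : ℝ}

/-- the constant `kap` of (A2) -/
noncomputable def kapB (k0 b0 h : ℝ) : ℝ := k0 * (1 + 3 * Real.exp (-h ^ 2 / 2)) * (1 + 1 / b0)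

lemma kapB_pos (hk : 0 < k0) (hb : 0 < b0) : 0 < kapB k0 b0 h := by
  unfold kapB
  have := (Real.exp_pos (-h ^ 2 / 2)).le
  positivity

/-- hypotheses on the parameters -/
structure Par (d : ℕ) (h A0 k0 b0 R : ℝ) : Prop where
  hh : 0 ≤ h
  hA : 0 < A0
  hk : 0 < k0
  hk1 : k0 ≤ 1
  hb : 0 < b0
  hb1 : b0 ≤ 1
  hAb : A0 ≤ b0
  hR : 0 ≤ R
  rad : 2 * d * h ^ 2 + 16 * (d * Real.log (1 / k0) + Real.log (b0 / A0))
      + 8 * (d * Real.log (1 / k0) + Real.log (1 / A0) + 1) ≤ R ^ 2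

lemma Par.rad' (P : Par d h A0 k0 b0 R) :
    2 * d * h ^ 2 + 16 * (d * Real.log (1 / k0) + Real.log (b0 / A0)) ≤ R ^ 2 := by
  have h1 : 0 ≤ Real.log (1 / k0) := Real.log_nonneg (by
    rw [one_div]; exact (one_le_inv₀ P.hk).2 P.hk1)
  have h2 : 0 ≤ Real.log (1 / A0) := Real.log_nonneg (by
    rw [one_div]; exact (one_le_inv₀ P.hA).2 (P.hAb.trans P.hb1))
  have h3 := P.rad
  have h4 : (0 : ℝ) ≤ d * Real.log (1 / k0) := by positivity
  linarith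

/-- **the box caps** -/
noncomputable def capsBox (hf : ONB f d) (P : Par d h A0 k0 b0 R) : M1.Caps f d R where
  A := capR A0 k0 f h
  Z := Zk A0 k0 b0 f h
  b0 := b0
  kap := kapB k0 b0 h
  A_pos := fun i x => capR_pos P.hA P.hk i x
  A_meas := fun i => (continuous_capR i).measurable
  A_cyl := fun i x w hw => capR_add_perp le_rfl x hw
  Z_cyl := fun i x w hw => cyl_Zk le_rfl x hw
  Z_mono := fun i => Zk_mono (Nat.le_succ i)
  Z_zero := by
    rw [Set.eq_empty_iff_forall_notMem]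
    intro x hx
    obtain ⟨i, hi, h1⟩ := hx
    rw [Nat.le_zero.1 hi, capR_zero] at h1
    exact absurd P.hAb (not_le.2 h1)
  Z_closed := fun i => isClosed_Zk_compl i
  Z_convex := fun i => convex_Zk_compl P.hA.le P.hk.le i
  b0_pos := P.hb
  kap_pos := kapB_pos P.hk P.hb
  A_le := fun i x hx => capR_le le_rfl hx
  lt_A := fun i x hx => hx
  child := fun i hi x hx => by
    have h1 := fib_cap_add_Zk (f := f) (h := h) hf P.hA.le P.hk.le P.hh P.hb hi hx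
    refine h1.trans (le_of_eq ?_)
    unfold cap kapB
    have := (Real.exp_pos (-h ^ 2 / 2)).le
    have hk := P.hk
    have hb := P.hb
    rw [← ENNReal.ofReal_mul (by positivity)]
  alive := fun i hi x hx hz => by
    have h1 := norm_sq_le_of_capR_le hf P.hh P.hA P.hk P.hk1 P.hb hi.le
      (capR_le (le_refl i) hz)
    rw [Submodule.starProjection_eq_self_iff.2 hx] at h1
    exact abs_le_of_sq_le_sq' (h1.trans P.rad') P.hR |>.2
  leaf := fun x hx => by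
    exact onLine_capR hf P.hh P.hA P.hk P.hk1 P.hb (Nat.sub_le d 1) P.rad (capR_le le_rfl hx)

@[simp] lemma capsBox_A (hf : ONB f d) (P : Par d h A0 k0 b0 R) :
    (capsBox hf P).A = capR A0 k0 f h := rfl

@[simp] lemma capsBox_Z (hf : ONB f d) (P : Par d h A0 k0 b0 R) :
    (capsBox hf P).Z = Zk A0 k0 b0 f h := rfl

@[simp] lemma capsBox_b0 (hf : ONB f d) (P : Par d h A0 k0 b0 R) : (capsBox hf P).b0 = b0 := rfl

@[simp] lemma capsBox_kap (hf : ONB f d) (P : Par d h A0 k0 b0 R) :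
    (capsBox hf P).kap = kapB k0 b0 h := rfl

omit [MeasurableSpace E] [BorelSpace E] [FiniteDimensional ℝ E] in
lemma kapB_le (hk : 0 < k0) (hb : 0 < b0) (hb1 : b0 ≤ 1) (he : 3 * Real.exp (-h ^ 2 / 2) ≤ 1) :
    kapB k0 b0 h ≤ 4 * k0 / b0 := by
  unfold kapB
  have h1 : 1 + 1 / b0 ≤ 2 / b0 := by
    rw [show (2 : ℝ) / b0 = 1 / b0 + 1 / b0 by ring]
    have : 1 ≤ 1 / b0 := by rw [one_div]; exact (one_le_inv₀ hb).2 hb1
    linarith
  have h0 := (Real.exp_pos (-h ^ 2 / 2)).le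
  calc k0 * (1 + 3 * Real.exp (-h ^ 2 / 2)) * (1 + 1 / b0)
      ≤ k0 * 2 * (2 / b0) := by gcongr; linarith
    _ = _ := by ring

/-- **the choice of the parameters**: with `b0 = c3/(d+1)^C3`, `k0 = c2/(d+1)^C2`,
`A0 = c4/(d+1)^C4` everything holds for all radii `R ≥ R0 √(d log (d+1))`. -/
theorem exists_par {c2 c3 c4 η : ℝ} (h2 : 0 < c2) (h21 : c2 ≤ 1) (h3 : 0 < c3) (h31 : c3 ≤ 1)
    (h4 : 0 < c4) (h43 : c4 ≤ c3) (hη : 0 < η) (hη1 : η ≤ 1) {C2 C3 C4 : ℕ} (hC23 : C3 ≤ C2)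
    (hC34 : C3 ≤ C4) :
    ∃ R0 : ℝ, 1 ≤ R0 ∧ ∀ d : ℕ, 1 ≤ d → ∀ R : ℝ,
      R0 * Real.sqrt (d * Real.log ((d : ℝ) + 1)) ≤ R →
      Par d (hh η d) (c4 / ((d : ℝ) + 1) ^ C4) (c2 / ((d : ℝ) + 1) ^ C2)
        (c3 / ((d : ℝ) + 1) ^ C3) R ∧
      6 * d * Real.exp (-(hh η d) ^ 2 / 2) ≤ η ∧
      kapB (c2 / ((d : ℝ) + 1) ^ C2) (c3 / ((d : ℝ) + 1) ^ C3) (hh η d)
        ≤ 4 * c2 / c3 / ((d : ℝ) + 1) ^ (C2 - C3) := by
  obtain ⟨R0, hR0, H⟩ := radius_bound h2 h3 h4 hη hη1 C2 C3 C4 1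
  refine ⟨R0, hR0, fun d hd R hR => ?_⟩
  have hd' : (1 : ℝ) ≤ d := by exact_mod_cast hd
  have hp : ∀ n : ℕ, 0 < ((d : ℝ) + 1) ^ n := fun n => by positivity
  have hp1 : ∀ n : ℕ, 1 ≤ ((d : ℝ) + 1) ^ n := fun n => one_le_pow₀ (by linarith)
  have hlog : 0 ≤ Real.log ((d : ℝ) + 1) := Real.log_nonneg (by linarith)
  have hR' : 0 ≤ R := le_trans (by positivity) hR
  have hspec := hh_spec hη hη1 d
  have hb1 : c3 / ((d : ℝ) + 1) ^ C3 ≤ 1 := by
    rw [div_le_one (hp _)]; exact h31.trans (hp1 _)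
  have he : 3 * Real.exp (-(hh η d) ^ 2 / 2) ≤ 1 := by
    have := (Real.exp_pos (-(hh η d) ^ 2 / 2)).le
    nlinarith
  refine ⟨⟨hh_nonneg _ _, div_pos h4 (hp _), div_pos h2 (hp _), ?_, div_pos h3 (hp _), hb1, ?_,
    hR', ?_⟩, hspec, ?_⟩
  · rw [div_le_one (hp _)]; exact h21.trans (hp1 _)
  · exact div_le_div₀ h3.le h43 (hp _) (pow_le_pow_right₀ (by linarith) hC34)
  · refine (H d hd).trans ?_
    have h5 : R0 ^ 2 * (d * Real.log ((d : ℝ) + 1))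
        = (R0 * Real.sqrt (d * Real.log ((d : ℝ) + 1))) ^ 2 := by
      rw [mul_pow, Real.sq_sqrt (by positivity)]
    rw [h5]
    exact pow_le_pow_left₀ (by positivity) hR 2
  · refine (kapB_le (div_pos h2 (hp _)) (div_pos h3 (hp _)) hb1 he).trans (le_of_eq ?_)
    have e : ((d : ℝ) + 1) ^ C2 = ((d : ℝ) + 1) ^ (C2 - C3) * ((d : ℝ) + 1) ^ C3 := by
      rw [← pow_add, Nat.sub_add_cancel hC23]
    rw [e]
    have := hp C3
    have := hp (C2 - C3)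
    field_simp

end Vale.Agent.P262.H924
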