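import Vale.Agent.P262.M2.Param

/-!
# P262, milestone 2: the root at the start, from the smallness of the constants
-/

set_option linter.all false

open MeasureTheory ProbabilityTheory Set
open scoped ENNReal

namespace Vale.Agent.P262.M2

open Real

variable {E : Type*} [NormedAddCommGroup E] [InnerProductSpace ℝ E] [FiniteDimensional ℝ E]
  [MeasurableSpace E] [BorelSpace E] {S : Sys E} {K : ℝ} {n : ℕ} {Lam : ℝ}

/-- the caps beat the root threshold -/
lemma Sys.Sm.kap_le_A0 (h : S.Sm K n Lam) (hK : 1 ≤ K) (hL : 1 ≤ Lam) (hn : 1 ≤ n) :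
    S.kap ≤ S.A0 := by
  have h1 := h.master (by linarith) hL (X := 1 / S.A0) (s := 1) (a := 0) (b := 0) (c := 0) (d := 0)
    (e := 1) (Nat.zero_le _) (Nat.zero_le _) (Nat.zero_le _) (Nat.zero_le _) hn
    (h.one_div_le_half.trans (by norm_num)) (by
      have h2 := h.one_le_inv_A0
      simp only [pow_zero, one_mul, pow_one]
      nlinarith)
  rw [rpow_one, one_div, inv_mul_le_iff₀ S.hA0, mul_one] at h1
  exact h1

/-- **the root at the start** -/
theorem Sys.Sm.start (h : S.Sm K n Lam) (hK : 1 ≤ K) (hL : 1 ≤ Lam) (hn : 1 ≤ n) (x : E) :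
    S.De [] 0 x ≤ ENNReal.ofReal S.A0 := by
  have hA := S.hA0
  have hb := h.b0_pos
  have hk := S.hkap
  have hk1 := S.hkap1
  have hd2 := S.hd2
  have hAb := S.hAb
  set D := Module.finrank ℝ E with hD
  have hDR : (2 : ℝ) ≤ D := by exact_mod_cast hd2
  have hD0 : (0 : ℝ) < D := by linarith
  have e : S.mv.Kb S.Kt 0 = Metric.closedBall 0 S.R := by
    have h1 := S.mv.Kb_start S.Kt 0
    rw [S.mv.n_zero] at h1
    rw [h1]
    show M1.body S.v S.R 0 = _
    rw [M1.body]
  have hkD : 0 < S.kap ^ D := pow_pos hk D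
  have lk : 0 ≤ log (1 / S.kap) := log_nonneg (by rw [one_div]; exact (one_le_inv₀ hk).2 hk1)
  have ek : log (1 / S.kap) = -log S.kap := by rw [one_div, log_inv]
  have lA : 0 ≤ log (1 / S.A0) := log_nonneg h.one_le_inv_A0
  have eA : log (1 / S.A0) = -log S.A0 := by rw [one_div, log_inv]
  have lb2 : log S.A0 ≤ log S.b0 := log_le_log hA hAb
  have e1 : log (S.b0 / (S.A0 * S.kap ^ D)) = log S.b0 + log (1 / S.A0) + D * log (1 / S.kap) := by
    rw [log_div hb.ne' (mul_pos hA hkD).ne', log_mul hA.ne' hkD.ne', log_pow, eA, ek]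
    ring
  have e2 : log (1 / (S.A0 * S.kap ^ D)) = log (1 / S.A0) + D * log (1 / S.kap) := by
    rw [one_div, log_inv, log_mul hA.ne' hkD.ne', log_pow, eA, ek]
    ring
  have h1 : 0 ≤ log (S.b0 / (S.A0 * S.kap ^ D)) := by
    rw [e1]
    have : 0 ≤ (D : ℝ) * log (1 / S.kap) := mul_nonneg hD0.le lk
    linarith
  have hr := h.rad D le_rfl
  rw [h.qq] at hr
  have s1 := sq_sqrt (show 0 ≤ 200 * (D : ℝ) by positivity)
  have s2 := sq_sqrt (show 0 ≤ 8 * log (S.b0 / (S.A0 * S.kap ^ D)) by positivity)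
  have s3 : 0 ≤ sqrt (200 * (D : ℝ)) * sqrt (8 * log (S.b0 / (S.A0 * S.kap ^ D))) := by positivity
  have hR2 : D * (200 + 16 * log (1 / S.kap)) ≤ S.R ^ 2 := by
    rw [e2] at hr
    have h2 : 200 * (D : ℝ) + 8 * log (S.b0 / (S.A0 * S.kap ^ D)) ≤
        (sqrt (200 * (D : ℝ)) + sqrt (8 * log (S.b0 / (S.A0 * S.kap ^ D)))) ^ 2 := by
      nlinarith
    rw [e1] at h2
    nlinarith
  have hR := S.hR
  have hsD : 0 < sqrt D := sqrt_pos.2 hD0
  have hC : S.R = S.R / sqrt D * sqrt D := by field_simp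
  have hC2 : 200 + 16 * log (1 / S.kap) ≤ (S.R / sqrt D) ^ 2 := by
    rw [div_pow, sq_sqrt hD0.le, le_div_iff₀ hD0]
    linarith
  have hkA := h.kap_le_A0 hK hL hn
  have hexp : 2 * exp (-(3 / 8 * (S.R / sqrt D) ^ 2)) ≤ S.A0 := by
    have h3 : exp (-(3 / 8 * (S.R / sqrt D) ^ 2)) ≤ exp (-75) * S.kap := by
      have h4 : exp (-75) * S.kap = exp (-75 + log S.kap) := by
        rw [exp_add, exp_log hk]
      rw [h4]
      apply exp_le_exp.2
      rw [ek] at hC2 lk
      nlinarith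
    have h5 : exp (-75) ≤ 1 / 2 := by
      rw [exp_neg, one_div]
      apply inv_anti₀ (by norm_num)
      have := add_one_le_exp (75 : ℝ)
      linarith
    nlinarith
  have hA1 : S.A0 ≤ 1 := h.A0_le_one
  rw [S.De_root_t, e, ← ENNReal.ofReal_toReal (measure_ne_top (stdGaussian E) _)]
  rw [hC]
  exact ENNReal.ofReal_le_ofReal (ball_tail (by omega) hexp hA1 (by positivity))

end Vale.Agent.P262.M2
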