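import Vale.Agent.P262.H924.Plug
import Vale.Agent.P262.H924.Start
import Vale.Agent.P262.H706.ThrA
import Vale.Agent.P262.H752.PlugStar
import Vale.Agent.P262.H967.Hm6
import Vale.Agent.P262.H174.RI7
import Vale.Agent.P262.H359.Acc2Sum

/-!
# P262, milestone 2: all blocks together, modulo the throughput (THR)
-/

set_option linter.all false

open MeasureTheory ProbabilityTheory Set
open scoped ENNReal
open Vale.Agent.P262.Cons493 (cCons cCons_pos)
open Vale.Agent.P262.H967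

namespace Vale.Agent.P262.M2.Sys

variable {E : Type*} [NormedAddCommGroup E] [InnerProductSpace ℝ E] [FiniteDimensional ℝ E]
  [MeasurableSpace E] [BorelSpace E] {S : Sys E} {KU Cr a CT w : ℝ}

private lemma kV_nn (S : Sys E) : 0 ≤ S.kV := by
  have h1 := CVc_nonneg (S := S)
  have h2 := S.hkap
  have h3 := S.hρ
  unfold kV
  positivity

private lemma kC_nn (S : Sys E) : 0 ≤ S.kC := by
  have h2 := S.hkap
  have h3 := S.hρ
  have h4 := cCons_pos
  unfold kC
  positivity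

lemma epn_nonneg (N : S.Num KU Cr a CT w) : 0 ≤ S.epn Cr a CT w := by
  have h4 := N.Cr0
  have h5 := N.a1
  have h6 := N.CT0
  have h7 := N.w0
  have h8 := S.hc0
  have h9 := S.hδ
  have h10 : 0 ≤ S.kV := kV_nn S
  have h11 : 0 ≤ 3 * Cr * CT * a * w * (2 * Real.pi * S.c0 / S.δ) := by positivity
  unfold epn
  linarith

private lemma KU_pos (N : S.Num KU Cr a CT w) : 0 < KU := by
  obtain ⟨q, c, J, h1, h2⟩ := N.lbl
  have hq : 0 < q := by
    have h3 := S.hq0
    rw [h1.q0] at h3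
    exact ENNReal.ofReal_pos.1 h3
  have hc := h1.cp
  have hc0 := S.hc0
  refine lt_of_lt_of_le ?_ h2
  unfold kL
  positivity

private lemma M_four (N : S.Num KU Cr a CT w) : 4 ≤ S.M := by
  obtain ⟨et, e0, e1, e2, e3⟩ := N.et
  by_contra hM
  push_neg at hM
  have hM0 := S.hM
  have h1 : (S.M / 4) ^ (1 - S.th) ≤ 1 := by
    apply Real.rpow_le_one (by linarith) (by linarith)
    rw [N.th]; norm_num
  nlinarith

/-- **all blocks together** -/
theorem closed_of (N : S.Num KU Cr a CT w) (hH : ∀ k ≤ S.mT, S.Healthy k)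
    (h8 : 8 * (S.M + 1) ≤ Cr) (h48 : 48 * S.CR ≤ Cr) (ha : 17 ≤ a)
    (hCT : 184 * cCons / S.b0 ≤ CT) (hlam : S.kap ^ S.th ≤ w ^ 4)
    (hT : S.THR CT (w ^ 4)) (h0 : S.De [] 0 0 ≤ ENNReal.ofReal S.A0) :
    S.De [] S.mT 0 ≤ ENNReal.ofReal (2 * S.A0) := by
  obtain ⟨et, e0, e1, e2, e3⟩ := N.et
  have hep := epn_nonneg N
  have hkC : 0 ≤ S.kC := kC_nn S
  have hI : S.InOK S.Gin := Gin_InOK N.qq2 N.kp2 N.kpA
  have hRI : S.ROTI S.Gin S.Hd Cr a :=
    ROTI.mono ROTI_Gin (by have := S.CR_ge_one; linarith) h48 (by norm_num) ha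
  have hkt : S.kap ^ S.th ≤ 1 / 2 := N.kr.trans (by have := S.hρ1; linarith)
  have hHM : S.HMOM S.Hd CT (w ^ 4) := HMOM_Hd' N.thrC N.kp2 N.kpA hkt
    (fun m hm => blk_root hH m hm.le) hCT hlam (by
      rw [Real.sqrt_eq_rpow, ← N.th]; exact hlam)
  exact acc2 (GG_meas hI) (GG_MOVE hI) (blk_CLOSE N) (blk_STARF N hH)
    (blk_LBL2 N hI) (blk_CONS N hH) (blk_IB N hH h8 (by linarith) hRI hHM hT) h0 (by rw [N.th])
    (M_four N) e0 e1 e2 (by norm_num) (KU_pos N) hkC hep (by linarith) N.w0 (lam := 2 * a)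
    (by linarith) le_rfl (by linarith [N.aw]) N.big (by linarith)
    (by have := N.big2; unfold KKn at this; linarith)

end Vale.Agent.P262.M2.Sys
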