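import Vale.Agent.P262.H924.CapsInst

/-!
# P262, milestone 1: the final choice of the constants (helper924)

The radius depends on `kap`, and `kap` has to be small against powers of the radius.  With
`k0 = exp (-s) / (d+1)^C2` the radius is `Kr (1+s) √(d log (d+1))`, so everything of the form
`K (1+R)^n (d+1)^m (1/b0)^p k0 ≤ 1` can be reached with `R = R0 √(d log (d+1))`, `R0` absolute.
-/

set_option linter.all false

open MeasureTheory ProbabilityTheory Set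
open scoped ENNReal RealInnerProductSpace
open Vale.Agent.P262.H118 (L ONB)
open Vale.Agent.P262.H395 (fib mix Inv)

namespace Vale.Agent.P262.H924

open Real

/-- explicit form of `log_le_mul` -/
lemma log_le_mul' {c : ℝ} (hc : 0 < c) (C : ℕ) {d : ℕ} (hd : 1 ≤ d) :
    log (c * ((d : ℝ) + 1) ^ C) ≤ (C + |log c| / log 2) * log ((d : ℝ) + 1) := by
  have hd' : (1 : ℝ) ≤ d := by exact_mod_cast hd
  have h2 : 0 < log 2 := log_pos (by norm_num)
  have h3 : log 2 ≤ log ((d : ℝ) + 1) := log_le_log (by norm_num) (by linarith)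
  rw [log_mul hc.ne' (by positivity), log_pow, add_mul, div_mul_eq_mul_div]
  have h4 : |log c| ≤ |log c| * log ((d : ℝ) + 1) / log 2 := by
    rw [le_div_iff₀ h2]
    exact mul_le_mul_of_nonneg_left h3 (abs_nonneg _)
  have h5 := le_abs_self (log c)
  linarith

/-- **explicit radius**: linear in `s = log (1/c2)` -/
theorem radius_explicit {c3 c4 η : ℝ} (h3 : 0 < c3) (h4 : 0 < c4) (hη : 0 < η)
    (hη1 : η ≤ 1) (C2 C3 C4 : ℕ) (Lam : ℝ) : ∃ Kr : ℝ, 1 ≤ Kr ∧ ∀ s : ℝ, 0 ≤ s → ∀ d : ℕ, 1 ≤ d →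
    2 * d * hh η d ^ 2 + 16 * (d * log (1 / (exp (-s) / ((d : ℝ) + 1) ^ C2))
      + log (c3 / ((d : ℝ) + 1) ^ C3 / (c4 / ((d : ℝ) + 1) ^ C4)))
      + 8 * (d * log (1 / (exp (-s) / ((d : ℝ) + 1) ^ C2)) + log (1 / (c4 / ((d : ℝ) + 1) ^ C4))
        + Lam) ≤ (Kr * (1 + s)) ^ 2 * (d * log ((d : ℝ) + 1)) := by
  have hl2 : 0 < log 2 := log_pos (by norm_num)
  obtain ⟨R1, hR1, H⟩ := radius_bound (c2 := 1) one_pos h3 h4 hη hη1 C2 C3 C4 Lam
  refine ⟨R1 + 24 / log 2, by have : 0 < 24 / log 2 := by positivity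
                              linarith, ?_⟩
  intro s hs d hd
  have hd' : (1 : ℝ) ≤ d := by exact_mod_cast hd
  have hL : log 2 ≤ log ((d : ℝ) + 1) := log_le_log (by norm_num) (by linarith)
  have hL0 : 0 < log ((d : ℝ) + 1) := by linarith
  have e1 : log (1 / (exp (-s) / ((d : ℝ) + 1) ^ C2)) = s + log (1 / (1 / ((d : ℝ) + 1) ^ C2)) := by
    have hp : 0 < ((d : ℝ) + 1) ^ C2 := by positivity
    rw [one_div, inv_div, log_div hp.ne' (exp_pos _).ne', log_exp, one_div_one_div]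
    ring
  have h1 := H d hd
  rw [e1]
  have h2 : 24 * (d * s) ≤ 24 / log 2 * s * (d * log ((d : ℝ) + 1)) := by
    have : 24 / log 2 * s * (d * log ((d : ℝ) + 1)) = 24 * (d * s) * (log ((d : ℝ) + 1) / log 2) := by
      ring
    rw [this]
    have h5 : 1 ≤ log ((d : ℝ) + 1) / log 2 := by rw [le_div_iff₀ hl2]; linarith
    have h6 : 0 ≤ 24 * (d * s) := by positivity
    nlinarith
  have h7 : 2 * d * hh η d ^ 2 + 16 * (d * (s + log (1 / (1 / ((d : ℝ) + 1) ^ C2)))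
      + log (c3 / ((d : ℝ) + 1) ^ C3 / (c4 / ((d : ℝ) + 1) ^ C4)))
      + 8 * (d * (s + log (1 / (1 / ((d : ℝ) + 1) ^ C2))) + log (1 / (c4 / ((d : ℝ) + 1) ^ C4))
        + Lam) ≤ (R1 ^ 2 + 24 / log 2 * s) * (d * log ((d : ℝ) + 1)) := by
    rw [add_mul]
    nlinarith
  refine h7.trans (mul_le_mul_of_nonneg_right ?_ (by positivity))
  set q := 24 / log 2 with hq
  have hq0 : 0 < q := by positivity
  have h8 : 0 ≤ R1 := by linarith
  have : (R1 + q) ^ 2 * (1 + s) ^ 2 = R1 ^ 2 + (2 * R1 * q + q ^ 2) + (R1 + q) ^ 2 * (2 * s + s ^ 2) := by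
    ring
  rw [mul_pow, this]
  have h9 : q * s ≤ (R1 + q) ^ 2 * (2 * s + s ^ 2) := by
    have h10 : q ≤ (R1 + q) ^ 2 := by nlinarith
    have h11 : s ≤ 2 * s + s ^ 2 := by nlinarith
    calc q * s ≤ (R1 + q) ^ 2 * s := mul_le_mul_of_nonneg_right h10 hs
      _ ≤ _ := mul_le_mul_of_nonneg_left h11 (by positivity)
  have h12 : 0 ≤ 2 * R1 * q + q ^ 2 := by positivity
  linarith

/-- exponential beats powers -/
lemma exists_exp_small (K : ℝ) (n : ℕ) : ∃ s : ℝ, 0 ≤ s ∧ K * (1 + s) ^ n * exp (-s) ≤ 1 := by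
  have h1 := (tendsto_pow_mul_exp_neg_atTop_nhds_zero n).const_mul (|K| * exp 1)
  rw [mul_zero] at h1
  have h2 := (h1.eventually (gt_mem_nhds one_pos)).and (Filter.eventually_ge_atTop (1 : ℝ))
  obtain ⟨x, hx, hx1⟩ := h2.exists
  refine ⟨x - 1, by linarith, ?_⟩
  have e : exp (-(x - 1)) = exp 1 * exp (-x) := by rw [← exp_add]; ring_nf
  rw [e, show 1 + (x - 1) = x by ring]
  have h3 : K * x ^ n * (exp 1 * exp (-x)) ≤ |K| * x ^ n * (exp 1 * exp (-x)) := by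
    have := le_abs_self K
    have hxn : 0 ≤ x ^ n * (exp 1 * exp (-x)) := by positivity
    nlinarith
  refine h3.trans ?_
  have : |K| * x ^ n * (exp 1 * exp (-x)) = |K| * exp 1 * (x ^ n * exp (-x)) := by ring
  rw [this]
  exact hx.le

lemma sqrt_dlog_le {d : ℕ} (hd : 1 ≤ d) : sqrt (d * log ((d : ℝ) + 1)) ≤ (d : ℝ) + 1 := by
  have hd' : (1 : ℝ) ≤ d := by exact_mod_cast hd
  rw [show ((d : ℝ) + 1) = sqrt (((d : ℝ) + 1) ^ 2) by rw [sqrt_sq (by linarith)]]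
  apply sqrt_le_sqrt
  rw [sqrt_sq (by linarith)]
  have : log ((d : ℝ) + 1) ≤ (d : ℝ) + 1 := (log_le_sub_one_of_pos (by linarith)).trans (by linarith)
  nlinarith

/-- **the final choice of constants.** -/
theorem exists_params (K : ℝ) (n m p : ℕ) {c3 c4 η : ℝ} (h3 : 0 < c3) (h31 : c3 ≤ 1)
    (h4 : 0 < c4) (h43 : c4 ≤ c3) (hη : 0 < η) (hη1 : η ≤ 1) {C3 C4 : ℕ} (hC34 : C3 ≤ C4) :
    ∃ (R0 : ℝ) (k : ℕ → ℝ), 1 ≤ R0 ∧ ∀ d : ℕ, 1 ≤ d →
      Par d (hh η d) (c4 / ((d : ℝ) + 1) ^ C4) (k d) (c3 / ((d : ℝ) + 1) ^ C3)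
        (R0 * sqrt (d * log ((d : ℝ) + 1))) ∧
      6 * d * exp (-(hh η d) ^ 2 / 2) ≤ η ∧
      kapB (k d) (c3 / ((d : ℝ) + 1) ^ C3) (hh η d) ≤ 4 * k d / (c3 / ((d : ℝ) + 1) ^ C3) ∧
      K * (1 + R0 * sqrt (d * log ((d : ℝ) + 1))) ^ n * ((d : ℝ) + 1) ^ m
        * (1 / (c3 / ((d : ℝ) + 1) ^ C3)) ^ p * k d ≤ 1 := by
  obtain ⟨Kr, hKr, H⟩ := radius_explicit h3 h4 hη hη1 (n + m + C3 * p) C3 C4 1
  obtain ⟨s, hs, Hs⟩ := exists_exp_small (|K| * (2 * Kr) ^ n * (1 / c3) ^ p) n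
  have hKs : 1 ≤ Kr * (1 + s) := by nlinarith
  refine ⟨Kr * (1 + s), fun d => exp (-s) / ((d : ℝ) + 1) ^ (n + m + C3 * p), hKs,
    fun d hd => ?_⟩
  have hd' : (1 : ℝ) ≤ d := by exact_mod_cast hd
  have hp : ∀ n : ℕ, 0 < ((d : ℝ) + 1) ^ n := fun n => by positivity
  have hp1 : ∀ n : ℕ, 1 ≤ ((d : ℝ) + 1) ^ n := fun n => one_le_pow₀ (by linarith)
  have hlog : 0 ≤ log ((d : ℝ) + 1) := log_nonneg (by linarith)
  have hspec := hh_spec hη hη1 d
  have hb1 : c3 / ((d : ℝ) + 1) ^ C3 ≤ 1 := by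
    rw [div_le_one (hp _)]; exact h31.trans (hp1 _)
  have he : 3 * exp (-(hh η d) ^ 2 / 2) ≤ 1 := by
    have := (exp_pos (-(hh η d) ^ 2 / 2)).le
    nlinarith
  have hes : exp (-s) ≤ 1 := by rw [exp_le_one_iff]; linarith
  have hk0 : 0 < exp (-s) / ((d : ℝ) + 1) ^ (n + m + C3 * p) := div_pos (exp_pos _) (hp _)
  have hR0 : 0 ≤ Kr * (1 + s) * sqrt (d * log ((d : ℝ) + 1)) := by positivity
  refine ⟨⟨hh_nonneg _ _, div_pos h4 (hp _), hk0, ?_, div_pos h3 (hp _), hb1, ?_,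
    hR0, ?_⟩, hspec, kapB_le hk0 (div_pos h3 (hp _)) hb1 he, ?_⟩
  · rw [div_le_one (hp _)]; exact hes.trans (hp1 _)
  · exact div_le_div₀ h3.le h43 (hp _) (pow_le_pow_right₀ (by linarith) hC34)
  · refine (H s hs d hd).trans (le_of_eq ?_)
    rw [mul_pow _ (sqrt _), sq_sqrt (by positivity)]
  · have hR1 : 1 + Kr * (1 + s) * sqrt (d * log ((d : ℝ) + 1))
        ≤ 2 * Kr * (1 + s) * ((d : ℝ) + 1) := by
      have h5 := sqrt_dlog_le hd
      have h6 : Kr * (1 + s) * sqrt (d * log ((d : ℝ) + 1)) ≤ Kr * (1 + s) * ((d : ℝ) + 1) :=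
        mul_le_mul_of_nonneg_left h5 (by linarith)
      nlinarith
    have hR2 : (1 + Kr * (1 + s) * sqrt (d * log ((d : ℝ) + 1))) ^ n
        ≤ (2 * Kr) ^ n * (1 + s) ^ n * ((d : ℝ) + 1) ^ n := by
      rw [← mul_pow, ← mul_pow]
      exact pow_le_pow_left₀ (by positivity) hR1 n
    have e1 : (1 / (c3 / ((d : ℝ) + 1) ^ C3)) ^ p = (1 / c3) ^ p * ((d : ℝ) + 1) ^ (C3 * p) := by
      rw [pow_mul, ← mul_pow]
      congr 1
      field_simp
    rw [e1]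
    have hx : 0 ≤ (1 + Kr * (1 + s) * sqrt (d * log ((d : ℝ) + 1))) ^ n := by positivity
    have hKr0 : (0 : ℝ) ≤ (2 * Kr) ^ n * (1 + s) ^ n * ((d : ℝ) + 1) ^ n := by positivity
    calc K * (1 + Kr * (1 + s) * sqrt (d * log ((d : ℝ) + 1))) ^ n * ((d : ℝ) + 1) ^ m
          * ((1 / c3) ^ p * ((d : ℝ) + 1) ^ (C3 * p))
          * (exp (-s) / ((d : ℝ) + 1) ^ (n + m + C3 * p))
        ≤ |K| * ((2 * Kr) ^ n * (1 + s) ^ n * ((d : ℝ) + 1) ^ n) * ((d : ℝ) + 1) ^ m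
          * ((1 / c3) ^ p * ((d : ℝ) + 1) ^ (C3 * p))
          * (exp (-s) / ((d : ℝ) + 1) ^ (n + m + C3 * p)) := by
          gcongr
          exact le_abs_self K
      _ = (|K| * (2 * Kr) ^ n * (1 / c3) ^ p) * (1 + s) ^ n * exp (-s)
          * (((d : ℝ) + 1) ^ n * ((d : ℝ) + 1) ^ m * ((d : ℝ) + 1) ^ (C3 * p)
            / ((d : ℝ) + 1) ^ (n + m + C3 * p)) := by ring
      _ = (|K| * (2 * Kr) ^ n * (1 / c3) ^ p) * (1 + s) ^ n * exp (-s) := by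
          rw [← pow_add, ← pow_add, div_self (hp _).ne', mul_one]
      _ ≤ 1 := Hs

section caps

variable {E : Type*} [NormedAddCommGroup E] [InnerProductSpace ℝ E]
variable {f : ℕ → E} {d : ℕ} {h A0 k0 b0 R : ℝ}

/-- the caps are not smaller than `exp (1 - R²/8)` -/
theorem Par.one_sub_log_le (P : Par d h A0 k0 b0 R) {i : ℕ} (hi : i ≤ d) (x : E) :
    1 - log (capR A0 k0 f h i x) ≤ R ^ 2 / 8 := by
  have h1 : 0 ≤ log (1 / k0) := log_nonneg (by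
    rw [one_div]; exact (one_le_inv₀ P.hk).2 P.hk1)
  have h2 : 0 ≤ log (b0 / A0) := log_nonneg ((one_le_div P.hA).2 P.hAb)
  have h3 : log (A0 * k0 ^ i) ≤ log (capR A0 k0 f h i x) :=
    log_le_log (mul_pos P.hA (pow_pos P.hk _)) (le_capR P.hA.le P.hk.le i x)
  have h4 : log (A0 * k0 ^ i) = -(log (1 / A0) + i * log (1 / k0)) := by
    rw [log_mul P.hA.ne' (pow_pos P.hk _).ne', log_pow, one_div, one_div, log_inv, log_inv]
    ring
  have h5 : (i : ℝ) * log (1 / k0) ≤ d * log (1 / k0) :=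
    mul_le_mul_of_nonneg_right (by exact_mod_cast hi) h1
  have h6 := P.rad
  have h7 : 0 ≤ 2 * d * h ^ 2 := by positivity
  have h8 : 0 ≤ d * log (1 / k0) := by positivity
  rw [h4] at h3
  linarith

/-- for every deficit above a cap: `√(1 - log D) ≤ R` -/
theorem Par.sqrt_le (P : Par d h A0 k0 b0 R) {i : ℕ} (hi : i ≤ d) (x : E) {D : ℝ}
    (hD : capR A0 k0 f h i x ≤ D) : sqrt (1 - log D) ≤ R := by
  have h1 := P.one_sub_log_le (f := f) hi x
  have h2 : log (capR A0 k0 f h i x) ≤ log D := log_le_log (capR_pos P.hA P.hk i x) hD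
  rw [← sqrt_sq P.hR]
  apply sqrt_le_sqrt
  nlinarith [sq_nonneg R]

/-- the caps of a fixed system are bounded below: `exp (1 - R²/8) ≤ A` -/
theorem Par.le_cap (P : Par d h A0 k0 b0 R) {i : ℕ} (hi : i ≤ d) (x : E) :
    exp (1 - R ^ 2 / 8) ≤ capR A0 k0 f h i x := by
  have h1 := P.one_sub_log_le (f := f) hi x
  rw [← exp_log (capR_pos P.hA P.hk i x)]
  exact exp_le_exp.2 (by linarith)

end caps

end Vale.Agent.P262.H924
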