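import Vale.Agent.P262.M2.Top
import Vale.Agent.P262.H633.Rad2

/-!
# P262, milestone 2: the last constants `kap`, `C0` (uniformly in a parameter `L ≥ 1`)
-/

set_option linter.all false

open MeasureTheory ProbabilityTheory Set
open scoped ENNReal

namespace Vale.Agent.P262.M2

open Vale.Agent.P262.H633 (R0sq R0sq_pos rad_cond)

/-- the constants which are fixed before `kap` -/
structure Cst0 where
  δ : ℝ
  c0 : ℝ
  ρ : ℝ
  M : ℝ
  th : ℝ
  A0 : ℝ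
  qq : ℝ
  b0 : ℝ
  q0 : ℝ≥0∞
  hδ : 0 < δ
  hδ1 : δ ≤ 1 / 200
  hc0 : 0 < c0
  hc0δ : c0 < δ
  hρ : 0 < ρ
  hρ1 : ρ < 1 / 3
  hM : 2 ≤ M
  hth : 0 < th
  hth1 : th < 1
  hA0 : 0 < A0
  hA1 : A0 ≤ 1 / 400
  hqq : 0 < qq
  hAb : A0 ≤ b0
  hMb : 2 * (M + 1) * b0 ≤ 1 / 16
  hq0 : 0 < q0
  hq1 : q0 ≤ 1 / 8

lemma two_exp_le {a x : ℝ} (ha : 0 < a) (ha1 : a ≤ 1) (hx : 4 * Real.log (2 / a) ≤ x) :
    2 * Real.exp (-(3 / 8 * x)) ≤ a := by
  have h1 : Real.log (2 / a) ≤ 3 / 8 * x := by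
    have : 0 ≤ Real.log (2 / a) := Real.log_nonneg (by rw [le_div_iff₀ ha]; linarith)
    linarith
  calc 2 * Real.exp (-(3 / 8 * x)) ≤ 2 * Real.exp (-(Real.log (2 / a))) := by gcongr
    _ = a := by
      rw [Real.exp_neg, Real.exp_log (by positivity)]
      field_simp

lemma bd1 {X Y l g : ℝ} (hX : 0 < X) (hY : 0 < Y) (hg : 0 ≤ g) (hl : l ≤ Y * (1 + g)) :
    Real.sqrt (X + 24 * l) ≤ (Real.sqrt (X + 24 * Y) + Y) * Real.sqrt (1 + g) := by
  have a1 : Real.sqrt (X + 24 * l) ≤ Real.sqrt ((X + 24 * Y) * (1 + g)) := by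
    apply Real.sqrt_le_sqrt
    nlinarith
  rw [Real.sqrt_mul (by positivity)] at a1
  refine a1.trans (mul_le_mul_of_nonneg_right ?_ (Real.sqrt_nonneg _))
  linarith

lemma bd2 {X Y l g : ℝ} (hY : 0 < Y) (hg : 0 ≤ g) (hl : l ≤ Y * (1 + g)) :
    l ≤ (Real.sqrt (X + 24 * Y) + Y) * (1 + g) := by
  refine hl.trans (mul_le_mul_of_nonneg_right ?_ (by linarith))
  linarith [Real.sqrt_nonneg (X + 24 * Y)]

/-- `c` extends `c0`, with last constant `kap`, radius `C0 ^ 2 = R0sq` -/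
structure Cst.Ext (c : Cst) (z : Cst0) : Prop where
  δ : c.δ = z.δ
  c0 : c.c0 = z.c0
  ρ : c.ρ = z.ρ
  M : c.M = z.M
  th : c.th = z.th
  A0 : c.A0 = z.A0
  qq : c.qq = z.qq
  b0 : c.b0 = z.b0
  q0 : c.q0 = z.q0
  rad : c.C0 ^ 2 = R0sq c.qq c.A0 c.kap c.b0 1 c.A0

/-- **the last constants**: `kap` small against `K`, also after multiplication of `kap ^ th` by
`L`, `C0 = O(√(1 + log L))`. -/
theorem exists_cst (z : Cst0) {K : ℝ} (hK : 1 ≤ K) : ∃ K2 : ℝ, 0 < K2 ∧ ∀ L : ℝ, 1 ≤ L →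
    ∃ c : Cst, c.Ext z ∧ K * c.kap ≤ 1 ∧ K * c.kap ^ z.th ≤ 1 ∧
      K * (L * c.kap ^ z.th) ^ (1 / 4 : ℝ) ≤ 1 ∧ c.C0 ≤ K2 * Real.sqrt (1 + Real.log L) ∧
      Real.log (1 / c.kap) ≤ K2 * (1 + Real.log L) := by
  have hK0 : 0 < K := by linarith
  have hth := z.hth
  have hth1 := z.hth1
  have hA := z.hA0
  have hA1 := z.hA1
  have hAb := z.hAb
  have hb0 : 0 < z.b0 := hA.trans_le hAb
  have hM := z.hM
  have hMb := z.hMb
  have hb1 : z.b0 ≤ 1 := by nlinarith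
  have hqq := z.hqq
  have hLK : 0 ≤ Real.log K := Real.log_nonneg hK
  set X := 2 * z.qq + 16 * Real.log (z.b0 / z.A0) + 8 * (1 + Real.log (1 / z.A0)) +
    4 * Real.log (2 / z.A0) + 4 with hX
  set Y := 4 / z.th * Real.log K + 1 / z.th with hY
  have l1 : 0 ≤ Real.log (z.b0 / z.A0) := Real.log_nonneg (by rw [le_div_iff₀ hA]; linarith)
  have l2 : 0 ≤ Real.log (1 / z.A0) := Real.log_nonneg (by rw [le_div_iff₀ hA]; linarith)
  have l3 : 0 ≤ Real.log (2 / z.A0) := Real.log_nonneg (by rw [le_div_iff₀ hA]; linarith)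
  have hX0 : 0 < X := by positivity
  have hY0 : 0 < Y := by positivity
  refine ⟨Real.sqrt (X + 24 * Y) + Y, by positivity, fun L hL => ?_⟩
  have hL0 : 0 < L := by linarith
  have hLL : 0 ≤ Real.log L := Real.log_nonneg hL
  set kap : ℝ := K ^ (-(4 / z.th)) * L ^ (-(1 / z.th)) with hkap
  have hk0 : 0 < kap := by positivity
  have e1 : K ^ (-(4 / z.th)) ≤ 1 / K := by
    rw [one_div, ← Real.rpow_neg_one K]
    apply Real.rpow_le_rpow_of_exponent_le hK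
    have : 1 ≤ 4 / z.th := by rw [le_div_iff₀ hth]; linarith
    linarith
  have e2 : L ^ (-(1 / z.th)) ≤ 1 := Real.rpow_le_one_of_one_le_of_nonpos hL (by
    have : 0 ≤ 1 / z.th := by positivity
    linarith)
  have hkK : kap ≤ 1 / K := by
    calc kap = K ^ (-(4 / z.th)) * L ^ (-(1 / z.th)) := hkap
      _ ≤ 1 / K * 1 := by gcongr
      _ = 1 / K := mul_one _
  have hk1 : kap ≤ 1 := hkK.trans (by rw [div_le_iff₀ hK0]; linarith)
  have e3 : kap ^ z.th = K ^ (-4 : ℝ) * L ^ (-1 : ℝ) := by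
    rw [hkap, Real.mul_rpow (by positivity) (by positivity), ← Real.rpow_mul hK0.le,
      ← Real.rpow_mul hL0.le]
    congr 2
    · field_simp
    · field_simp
  have e4 : L * kap ^ z.th = K ^ (-4 : ℝ) := by
    rw [e3, Real.rpow_neg_one]
    field_simp
  have e5 : K ^ (-4 : ℝ) ≤ 1 / K := by
    rw [one_div, ← Real.rpow_neg_one K]
    exact Real.rpow_le_rpow_of_exponent_le hK (by norm_num)
  have e6 : kap ^ z.th ≤ 1 / K := by
    rw [e3]
    have : L ^ (-1 : ℝ) ≤ 1 := Real.rpow_le_one_of_one_le_of_nonpos hL (by norm_num)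
    calc K ^ (-4 : ℝ) * L ^ (-1 : ℝ) ≤ 1 / K * 1 := by gcongr
      _ = 1 / K := mul_one _
  have e7 : (L * kap ^ z.th) ^ (1 / 4 : ℝ) = 1 / K := by
    rw [e4, ← Real.rpow_mul hK0.le, one_div K, ← Real.rpow_neg_one K]
    norm_num
  have hlogk : Real.log (1 / kap) = 4 / z.th * Real.log K + 1 / z.th * Real.log L := by
    rw [one_div, Real.log_inv, hkap, Real.log_mul (by positivity) (by positivity),
      Real.log_rpow hK0, Real.log_rpow hL0]
    ring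
  have hlogk2 : Real.log (1 / kap) ≤ Y * (1 + Real.log L) := by
    rw [hlogk, hY]
    have a1 : 0 ≤ 4 / z.th * Real.log K * Real.log L := by positivity
    have a2 : 0 ≤ 1 / z.th := by positivity
    nlinarith
  have hpos := R0sq_pos (q := z.qq) hqq.le hA hAb hb1 hk0 hk1 zero_le_one hA (by linarith : z.A0 ≤ 1)
  have hval : R0sq z.qq z.A0 kap z.b0 1 z.A0 = X + 24 * Real.log (1 / kap) := by
    unfold R0sq
    rw [hX]; ring
  set C0 := Real.sqrt (R0sq z.qq z.A0 kap z.b0 1 z.A0) with hC0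
  have hC0sq : C0 ^ 2 = R0sq z.qq z.A0 kap z.b0 1 z.A0 := Real.sq_sqrt (by linarith)
  have hC1 : 1 ≤ C0 := by
    rw [hC0, Real.one_le_sqrt]; linarith
  have hC0' : 2 * Real.exp (-(3 / 8 * C0 ^ 2)) ≤ z.A0 := by
    refine two_exp_le hA (by linarith) ?_
    rw [hC0sq]
    unfold R0sq
    have l4 : 0 ≤ Real.log (1 / kap) := Real.log_nonneg (by rw [le_div_iff₀ hk0]; linarith)
    nlinarith
  refine ⟨{ δ := z.δ, c0 := z.c0, ρ := z.ρ, M := z.M, th := z.th, A0 := z.A0, kap := kap,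
            qq := z.qq, b0 := z.b0, q0 := z.q0, C0 := C0, hδ := z.hδ, hδ1 := z.hδ1, hc0 := z.hc0,
            hc0δ := z.hc0δ, hρ := z.hρ, hρ1 := z.hρ1, hM := z.hM, hth := z.hth, hth1 := z.hth1,
            hA0 := z.hA0, hA1 := z.hA1, hkap := hk0, hkap1 := hk1, hqq := z.hqq, hAb := z.hAb,
            hMb := z.hMb, hq0 := z.hq0, hq1 := z.hq1, hC1 := hC1, hC0 := hC0' },
    ⟨rfl, rfl, rfl, rfl, rfl, rfl, rfl, rfl, rfl, hC0sq⟩, ?_, ?_, ?_, ?_, ?_⟩
  · show K * kap ≤ 1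
    calc K * kap ≤ K * (1 / K) := by gcongr
      _ = 1 := mul_one_div_cancel hK0.ne'
  · show K * kap ^ z.th ≤ 1
    calc K * kap ^ z.th ≤ K * (1 / K) := by gcongr
      _ = 1 := mul_one_div_cancel hK0.ne'
  · show K * (L * kap ^ z.th) ^ (1 / 4 : ℝ) ≤ 1
    rw [e7]
    exact (mul_one_div_cancel hK0.ne').le
  · show C0 ≤ (Real.sqrt (X + 24 * Y) + Y) * Real.sqrt (1 + Real.log L)
    rw [hC0, hval]
    exact bd1 hX0 hY0 hLL hlogk2
  · exact bd2 hY0 hLL hlogk2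

end Vale.Agent.P262.M2
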