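import Vale.Agent.P262.H924.Num

/-!
# P262, milestone 2: the plug, part 1 (blocks with their numerical hypotheses discharged)
-/

set_option linter.all false

open MeasureTheory ProbabilityTheory Set
open scoped ENNReal

namespace Vale.Agent.P262.M2.Sys

variable {E : Type*} [NormedAddCommGroup E] [InnerProductSpace ℝ E] [FiniteDimensional ℝ E]
  [MeasurableSpace E] [BorelSpace E] {S : Sys E} {KU Cr a CT w : ℝ}

lemma blk_root (hH : ∀ k ≤ S.mT, S.Healthy k) : ∀ m, m ≤ S.mT → ∀ x, S.kl [] m x ≠ 0 :=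
  fun _ hm x => kl_root (S.tm_lt_f hm) hH x

lemma Num.qq2 (N : S.Num KU Cr a CT w) :
    2 * (Real.sqrt 2 * Real.exp (-(S.qq / 4))) ≤ 1 / 2 := N.qq41.trans (by norm_num)

lemma Num.kp2 (N : S.Num KU Cr a CT w) : S.kp 1 ≤ 1 / 2 := N.kp8.trans (by norm_num)

lemma Num.δ10 (N : S.Num KU Cr a CT w) : S.δ ≤ 1 / 10 := N.δ.trans (by norm_num)

theorem blk_CLOSE (N : S.Num KU Cr a CT w) : S.CLOSE := close N.qq2 N.kp2 N.kpA

theorem blk_CONS (N : S.Num KU Cr a CT w) (hH : ∀ k ≤ S.mT, S.Healthy k) : S.CONS S.kC :=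
  fun l _ => cons N.consC N.kr (fun m hm x => blk_root hH m hm.le x) l

lemma blk_ConvH (N : S.Num KU Cr a CT w) (hH : ∀ k ≤ S.mT, S.Healthy k) : S.ConvH :=
  ⟨N.consC, N.kr, N.kp8, blk_root hH⟩

theorem blk_CVG (N : S.Num KU Cr a CT w) (hH : ∀ k ≤ S.mT, S.Healthy k) : S.CVG (2 * S.kV) a :=
  cvg (blk_ConvH N hH) (by linarith [N.a1])

theorem blk_REO (N : S.Num KU Cr a CT w) (hH : ∀ k ≤ S.mT, S.Healthy k) (ha : 2 ≤ a)
    {Gi : List ℕ → ℕ → E → ℝ≥0∞} : S.REO (S.GG Gi) (2 * S.kV) a := by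
  have h1 : 4 * S.kp 1 * (S.M + 1) ≤ 1 := by
    have h2 := N.kpA
    have h3 := S.hM
    have h4 : 0 ≤ S.kp 1 := kp_nonneg 1
    nlinarith
  have h5 : S.cc ≤ 1 / 32 := by
    have := S.hMb
    unfold cc
    linarith
  have h6 : 0 ≤ S.cc := by
    have h7 := S.hM
    have h8 := S.hA0.trans_le S.hAb
    unfold cc
    positivity
  exact REO_GG (REO.mono (reo (blk_ConvH N hH) h1 (G := S.L1f) fun m _ _ p x => le_of_eq rfl)
    le_rfl (by linarith) (by linarith))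

lemma L1_eq (p : List ℕ) (m : ℕ) (x : E) : S.L1 p m x = S.L1f p m x := rfl

theorem blk_ROTO (N : S.Num KU Cr a CT w) (h8 : 8 * (S.M + 1) ≤ Cr) (ha : 2 ≤ a)
    {Gi : List ℕ → ℕ → E → ℝ≥0∞} : S.ROTO (S.GG Gi) Cr a := by
  refine ROTO_GG (ROTO.mono (roto_of (G := S.L1f) (fun m _ _ p x _ => le_of_eq rfl) (blk_CLOSE N))
    ?_ h8 (by norm_num) ha)
  have := S.hM
  positivity

theorem blk_PriceOK (N : S.Num KU Cr a CT w) {Gi : List ℕ → ℕ → E → ℝ≥0∞} (hI : S.InOK Gi) :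
    S.PriceOK (S.GG Gi) := GG_PriceOK hI le_rfl N.rim N.δ10

theorem blk_LBL2 (N : S.Num KU Cr a CT w) {Gi : List ℕ → ℕ → E → ℝ≥0∞} (hI : S.InOK Gi) :
    S.LBL2 (S.GG Gi) KU := by
  obtain ⟨q, c, J, h1, h2⟩ := N.lbl
  exact LBL2.mono (lbl2 h1 N.qq2 N.kp2 le_rfl (blk_PriceOK N hI)) h2

theorem blk_IB (N : S.Num KU Cr a CT w) (hH : ∀ k ≤ S.mT, S.Healthy k)
    (h8 : 8 * (S.M + 1) ≤ Cr) (ha : 2 ≤ a) {Gi : List ℕ → ℕ → E → ℝ≥0∞}
    {H : ℕ → E → ℝ≥0∞}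
    (hRI : S.ROTI Gi H Cr a) (hHM : S.HMOM H CT (w ^ 4)) (hT : S.THR CT (w ^ 4)) :
    S.IB (S.GG Gi) (S.epn Cr a CT w) a w := by
  have hkV : 0 ≤ S.kV := by
    unfold kV
    have h1 := CVc_nonneg (S := S)
    have h2 := S.hkap
    have h3 := S.hρ
    positivity
  have haw : a * w ^ 4 ≤ 1 / 2 := by
    have h1 := N.w0
    have h2 := N.w1
    have h3 := N.aw
    have h4 := N.a1
    have h5 : w ^ 4 ≤ w := by
      calc w ^ 4 = w ^ 3 * w := by ring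
        _ ≤ 1 * w := by gcongr; exact pow_le_one₀ h1 h2
        _ = w := one_mul w
    have h6 : 0 ≤ a * w := by positivity
    nlinarith
  exact IB_of (ROTI_GG hRI) (blk_ROTO N h8 ha) hHM hT (blk_REO N hH ha) (blk_CVG N hH) N.Cr0 N.a1
    N.CT0 N.w0 N.w1 haw N.wρ (by positivity) (by positivity)

end Vale.Agent.P262.M2.Sys
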