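import Vale.Agent.P262.M2.Blocks

/-!
# P262, milestone 2: sum over the rotation moves, from one move to the units (ROTSUM)
-/

set_option linter.all false

open MeasureTheory ProbabilityTheory Set
open scoped ENNReal RealInnerProductSpace
open Vale.Agent.P262.H118 (Iv st en ON rotE tau wd wrd Mg Piece K2 El2 paths Cl cl_paths mem_paths
  iv_st)
open Vale.Agent.P262.H274 (Slow Cost)
open Vale.Agent.P262.H395 (fib mix Inv inv_fib measurable_fib fib_mono)

namespace Vale.Agent.P262.H924.M2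

open Vale.Agent.P262.M2

variable {E : Type*} [NormedAddCommGroup E] [InnerProductSpace ℝ E] [FiniteDimensional ℝ E]
  [MeasurableSpace E] [BorelSpace E] {S : Sys E}

/-! ### nodes of a label on the life -/

lemma nd_succ (S : Sys E) (m : ℕ) (x : E) (j : ℕ) :
    S.nd m x (j + 1) = S.kl (S.nd m x j) m x :: S.nd m x j := rfl

lemma nd_same {m k : ℕ} {x : E} {j : ℕ} (h : S.Same (S.K.nw (S.nd m x j)) m k)
    (hm : S.mv.tm m < S.T) : S.nd k x j = S.nd m x j := by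
  induction j with
  | zero => rfl
  | succ j ih =>
    rw [nd_succ] at h
    have h1 : S.Same (S.BB (S.nd m x j) m x) m k :=
      h.mono (S.K.B_sub_nw _ _) (S.K.zero_mem_B _ _) hm
    have h2 := ih (h1.mono (S.K.nw_sub_B _ _) (S.K.zero_mem_nw _) hm)
    rw [nd_succ, nd_succ, h2, Sys.kl_same h1 hm]

lemma nd_suffix (m : ℕ) (x : E) {i j : ℕ} (h : i ≤ j) : S.nd m x i <:+ S.nd m x j := by
  induction j, h using Nat.le_induction with
  | base => exact List.suffix_refl _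
  | succ j h ih => rw [nd_succ]; exact ih.trans (List.suffix_cons _ _)

lemma OL_same {m k : ℕ} {x : E} {j : ℕ} (h : S.Same (S.K.nw (S.nd m x j)) m k)
    (hm : S.mv.tm m < S.T) : x ∈ S.OL j k ↔ x ∈ S.OL j m := by
  unfold Sys.OL
  simp only [mem_setOf_eq]
  refine forall_congr' fun i => imp_congr_right fun hi => ?_
  have h1 : S.Same (S.K.nw (S.nd m x (i + 1))) m k :=
    h.mono (S.K.nw_mono (nd_suffix m x hi)) (S.K.zero_mem_nw _) hm
  have h2 : S.Same (S.BB (S.nd m x i) m x) m k :=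
    h1.mono (S.K.B_sub_nw _ _) (S.K.zero_mem_B _ _) hm
  have h3 : S.nd k x i = S.nd m x i :=
    nd_same (h2.mono (S.K.nw_sub_B _ _) (S.K.zero_mem_nw _) hm) hm
  rw [h3]
  exact Sys.om_same h2 hm

lemma nw_of_BB {m k : ℕ} {x : E} {j : ℕ} (h : S.Same (S.BB (S.nd m x j) m x) m k)
    (hm : S.mv.tm m < S.T) : S.Same (S.K.nw (S.nd m x j)) m k :=
  h.mono (S.K.nw_sub_B _ _) (S.K.zero_mem_nw _) hm

lemma NL_same {m k : ℕ} {x : E} {j : ℕ} (h : S.Same (S.K.nw (S.nd m x j)) m k)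
    (hm : S.mv.tm m < S.T) : x ∈ S.NL j k ↔ x ∈ S.NL j m := by
  unfold Sys.NL
  simp only [mem_setOf_eq]
  rw [nd_same h hm, h.leaf subset_rfl hm]

variable (S) in
/-- counted non leaf labels of level `j` whose child is the rotated node -/
def RG (j m : ℕ) : Set E :=
  S.NL j m ∩ S.OL j m ∩ {x | x ∈ S.om (S.nd m x j) m ∧ S.nd m x (j + 1) = S.mv.jj m}

variable (S) in
/-- unit without the cost, with the factor `2 ^ class` -/
noncomputable def un0 (p : List ℕ) (m : ℕ) (x : E) : ℝ≥0∞ :=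
  (2 : ℝ≥0∞) ^ S.kl p m x * (S.As S.th p m x * S.psi p m x)

lemma un0_same {p : List ℕ} {m k : ℕ} {x : E} (h : S.Same (S.BB p m x) m k)
    (hm : S.mv.tm m < S.T) : un0 S p k x = un0 S p m x := by
  unfold un0
  rw [Sys.kl_same h hm, h.As (Sys.nw_sub_BB p m x) hm, Sys.psi_same h hm]

variable (S) in
/-- starts of counted blocks of the non leaf labels of level `j` -/
def UG (j m : ℕ) : Set E :=
  S.NL j m ∩ S.OL j m ∩ {x | x ∈ S.om (S.nd m x j) m ∧ S.bs (S.nd m x j) m x = m}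

lemma mT_lt {m : ℕ} (h : m < S.mT) : S.mv.tm m < S.T :=
  S.mv.tm_lt_of_lt (by unfold Sys.mT at h; omega)

/-- real form of one block -/
lemma block_rot {p : List ℕ} {c s e : ℕ} (hG : c :: p ∈ paths S.cm (Module.finrank ℝ E))
    (h2 : 2 ≤ Module.finrank ℝ (S.K.W p s)ᗮ) (h : Iv (S.K.B p c) S.T s e) {w : ℝ} (hw : 0 ≤ w)
    (hwρ : 3 * w ≤ S.ρ) (s' : Finset ℕ) (hs' : ∀ m ∈ s', S.mv.IsRot m ∧ S.mv.jj m = c :: p ∧
      s ≤ S.mv.tm m ∧ S.mv.tm m < e) :
    ∑ m ∈ s', w ^ S.K.kd (S.mv.jj m) (S.mv.tm m) * S.mv.ph m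
      ≤ Real.pi * S.N c / S.δ * Cost (S.K.Sw p s (S.N c)) S.ρ s e := by
  classical
  have hN : 0 ≤ S.N c := by rw [S.hN]; have := S.hc0; positivity
  have h3 := S.mv.rot_sum S.hδ hG hN h2 h hw hwρ (g := fun _ => 1) (g0 := 1) zero_le_one
    (fun _ _ _ _ => le_rfl)
  rw [one_mul] at h3
  refine le_trans ?_ h3
  have hse : s < e := h.2.1
  let F : ℕ → ℝ := fun m => if S.mv.IsRot m ∧ S.mv.jj m = c :: p then
    w ^ S.K.kd (c :: p) (S.mv.tm m) * S.mv.ph m * 1 else 0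
  have hF0 : ∀ m, 0 ≤ F m := by
    intro m
    simp only [F]
    by_cases hm : S.mv.IsRot m ∧ S.mv.jj m = c :: p
    · rw [if_pos hm]
      have h6 : 0 ≤ S.mv.ph m := by
        have := (S.mv.rot (S.mv.tm m) m hm.1.1 hm.1.2).1
        exact this.nonneg
      positivity
    · rw [if_neg hm]
  have e1 : ∑ t ∈ Finset.Ico s e, ∑ m ∈ Finset.Ico (S.mv.n t + 1) (S.mv.n (t + 1) - 1),
      (if S.mv.jj m = c :: p then w ^ S.K.kd (c :: p) t * S.mv.ph m * 1 else 0)
      = ∑ m ∈ Finset.Ico (S.mv.n s) (S.mv.n e), F m := by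
    rw [S.mv.sum_steps F hse.le]
    refine Finset.sum_congr rfl fun t _ => ?_
    rw [S.mv.sum_step F t]
    have a1 : F (S.mv.n t) = 0 := by
      simp only [F]
      rw [if_neg]
      rintro ⟨h4, -⟩
      exact h4.not_star (S.mv.isStar_iff.2 ⟨t, rfl⟩)
    have a2 : F (S.mv.n (t + 1) - 1) = 0 := by
      simp only [F]
      rw [if_neg]
      rintro ⟨h4, -⟩
      have h5 := S.mv.n_lt t
      have h6 : S.mv.tm (S.mv.n (t + 1) - 1) = t := S.mv.tm_eq (by omega) (by omega)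
      refine h4.not_re ?_
      unfold El2.IsRe
      rw [h6]; omega
    rw [a1, a2, zero_add, add_zero]
    refine Finset.sum_congr rfl fun m hm => ?_
    rw [Finset.mem_Ico] at hm
    have h6 : S.mv.tm m = t := S.mv.tm_eq (by omega) (by omega)
    have h7 : S.mv.IsRot m := by
      unfold El2.IsRot
      rw [h6]; omega
    simp only [F]
    by_cases hj : S.mv.jj m = c :: p
    · rw [if_pos hj, if_pos ⟨h7, hj⟩, h6]
    · rw [if_neg hj, if_neg fun h8 => hj h8.2]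
  rw [e1]
  have hsub : s' ⊆ Finset.Ico (S.mv.n s) (S.mv.n e) := by
    intro m hm
    obtain ⟨-, -, h4, h5⟩ := hs' m hm
    have h6 := S.mv.tm_spec m
    have h7 := S.mv.n_mono h4
    have h8 := S.mv.n_mono (Nat.succ_le_of_lt h5)
    rw [Nat.succ_eq_add_one] at h8
    rw [Finset.mem_Ico]
    exact ⟨h7.trans h6.1, lt_of_lt_of_le h6.2 h8⟩
  refine le_trans (le_of_eq ?_) (Finset.sum_le_sum_of_subset_of_nonneg hsub fun m _ _ => hF0 m)
  refine Finset.sum_congr rfl fun m hm => ?_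
  obtain ⟨h4, h5, -, -⟩ := hs' m hm
  simp only [F]
  rw [if_pos ⟨h4, h5⟩, h5, mul_one]

/-- **one block of one label** -/
lemma block_point {j a : ℕ} {x : E} {w : ℝ} (hw : 0 ≤ w) (hwρ : 3 * w ≤ S.ρ) (s : Finset ℕ)
    (hs : ∀ m ∈ s, m < S.mT ∧ S.mv.IsRot m ∧ S.bs (S.nd m x j) m x = a) :
    ∑ m ∈ s, Sys.iw (RG S j m) x * (ENNReal.ofReal (w ^ S.K.kd (S.mv.jj m) (S.mv.tm m) *
      S.mv.ph m) * un0 S (S.nd m x j) m x)
      ≤ ENNReal.ofReal (Real.pi * S.c0 / S.δ) *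
        (Sys.iw (UG S j a) x * S.un (S.nd a x j) a x) := by
  classical
  by_cases hex : ∃ m0 ∈ s, x ∈ RG S j m0
  swap
  · push Not at hex
    rw [Finset.sum_eq_zero]
    · exact zero_le
    · intro m hm
      unfold Sys.iw
      rw [indicator_of_notMem (hex m hm), zero_mul]
  obtain ⟨m0, hm0, hx0⟩ := hex
  have hfib : ∀ m ∈ s, S.mv.tm m < S.T ∧ S.Same (S.BB (S.nd m x j) m x) m a ∧
      S.nd a x j = S.nd m x j := by
    intro m hm
    obtain ⟨h1, h2, h3⟩ := hs m hm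
    have h4 := mT_lt h1
    have h5 : S.Same (S.BB (S.nd m x j) m x) m a := by
      have h6 := Sys.le_be (S.nd m x j) x h4
      have h7 := Sys.bs_le (S := S) (S.nd m x j) m x
      exact ⟨le_of_eq h3, by rw [← h3]; exact h7.trans h6⟩
    exact ⟨h4, h5, nd_same (nw_of_BB h5 h4) h4⟩
  obtain ⟨hm0T, hsame0, hnd0⟩ := hfib m0 hm0
  set p := S.nd a x j with hp
  have haT : S.mv.tm a < S.T := hsame0.lt hm0T
  have hsa : ∀ m ∈ s, S.nd m x j = p ∧ S.Same (S.BB p a x) a m ∧ S.kl p m x = S.kl p a x := by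
    intro m hm
    obtain ⟨h1, h2, h3⟩ := hfib m hm
    rw [← h3] at h2
    have h4 := Sys.kl_same h2 h1
    have h5 : S.Same (S.BB p a x) a m := by
      have := h2.symm (Sys.zero_mem_BB _ _ _) h1
      rwa [← Sys.BB_same h2 h1] at this
    exact ⟨h3.symm, h5, h4.symm⟩
  set c := S.kl p a x with hc
  -- the block
  have hiv := iv_st (B := S.K.B p c) (S.K.zero_mem_B p c) haT
  set s0 := st (S.K.B p c) (S.mv.tm a) with hs0
  set e0 := en (S.K.B p c) S.T s0 with he0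
  have hbsa : S.bs p a x = a := by
    obtain ⟨h1, h2, h3⟩ := hsa m0 hm0
    have h4 := (hs m0 hm0).2.2
    rw [h1] at h4
    have h5 : S.Same (S.BB p m0 x) m0 a := by
      have := (hfib m0 hm0).2.1
      rwa [h1] at this
    rw [Sys.bs_same h5 hm0T, h4]
  have hna : S.mv.n s0 = a := hbsa
  have htma : S.mv.tm a = s0 := by rw [← hna]; exact S.mv.tm_n _
  -- membership at `a`
  have hnw0 : S.Same (S.K.nw (S.nd m0 x j)) m0 a := nw_of_BB hsame0 hm0T
  have hxU : x ∈ UG S j a := by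
    refine ⟨⟨(NL_same hnw0 hm0T).2 hx0.1.1, (OL_same hnw0 hm0T).2 hx0.1.2⟩, ?_, hbsa⟩
    have h1 := hx0.2.1
    have h2 := (Sys.om_same hsame0 hm0T).2 h1
    rwa [← hnd0] at h2
  have hG : c :: p ∈ paths S.cm (Module.finrank ℝ E) := by
    have h1 := hx0.2.2
    rw [nd_succ, (hsa m0 hm0).1, (hsa m0 hm0).2.2] at h1
    rw [h1]
    exact (S.mv.rot_data (hs m0 hm0).2.1).2.1
  have h2 : 2 ≤ Module.finrank ℝ (S.K.W p s0)ᗮ := by
    have h3 := hxU.1.1
    unfold Sys.NL Sys.Leaf at h3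
    simp only [mem_setOf_eq, not_le] at h3
    unfold Sys.W at h3
    rw [htma] at h3
    exact h3
  -- the finite set of active moves
  let s1 : Finset ℕ := s.filter fun m => S.mv.jj m = c :: p
  have h3 := block_rot (S := S) hG h2 hiv.1 hw hwρ s1 (by
    intro m hm
    rw [Finset.mem_filter] at hm
    obtain ⟨h4, h5, h6⟩ := hsa m hm.1
    refine ⟨(hs m hm.1).2.1, hm.2, ?_⟩
    have h7 := S.mv.tm_mem (S.K.zero_mem_B p c) haT h5.1 h5.2
    exact h7)
  have h4 : ∑ m ∈ s, Sys.iw (RG S j m) x * (ENNReal.ofReal (w ^ S.K.kd (S.mv.jj m) (S.mv.tm m) *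
      S.mv.ph m) * un0 S (S.nd m x j) m x)
      ≤ ∑ m ∈ s1, ENNReal.ofReal (w ^ S.K.kd (S.mv.jj m) (S.mv.tm m) * S.mv.ph m) *
        un0 S p a x := by
    rw [Finset.sum_filter]
    refine Finset.sum_le_sum fun m hm => ?_
    obtain ⟨h5, h6, h7⟩ := hsa m hm
    have h8 : un0 S (S.nd m x j) m x = un0 S p a x := by
      rw [h5]
      exact un0_same h6 haT
    by_cases hx : x ∈ RG S j m
    · have h9 : S.mv.jj m = c :: p := by
        rw [← hx.2.2, nd_succ, h5, h7]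
      rw [if_pos h9, h8]
      unfold Sys.iw
      rw [indicator_of_mem hx]
      simp
    · unfold Sys.iw
      rw [indicator_of_notMem hx, zero_mul]
      exact zero_le
  refine h4.trans ?_
  rw [← Finset.sum_mul, ← ENNReal.ofReal_sum_of_nonneg]
  swap
  · intro m hm
    rw [Finset.mem_filter] at hm
    have h6 : 0 ≤ S.mv.ph m :=
      (S.mv.rot (S.mv.tm m) m (hs m hm.1).2.1.1 (hs m hm.1).2.1.2).1.nonneg
    positivity
  have h5 : Sys.iw (UG S j a) x = 1 := by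
    unfold Sys.iw
    rw [indicator_of_mem hxU]
    rfl
  rw [h5, one_mul]
  have hcst : S.cst p a x = ENNReal.ofReal (Cost (S.K.Sw p s0 (S.N c)) S.ρ s0 e0) := rfl
  unfold Sys.un
  rw [hcst]
  unfold un0
  rw [← hc]
  have hcost : 0 ≤ Cost (S.K.Sw p s0 (S.N c)) S.ρ s0 e0 := H274.cost_nonneg S.hρ.le _ _
  have hc0 := S.hc0
  have hδ := S.hδ
  have hpi := Real.pi_pos
  have h6 : ENNReal.ofReal (Real.pi * S.N c / S.δ * Cost (S.K.Sw p s0 (S.N c)) S.ρ s0 e0) *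
      (2 : ℝ≥0∞) ^ c = ENNReal.ofReal (Real.pi * S.c0 / S.δ) *
        ENNReal.ofReal (Cost (S.K.Sw p s0 (S.N c)) S.ρ s0 e0) := by
    rw [show (2 : ℝ≥0∞) ^ c = ENNReal.ofReal ((2 : ℝ) ^ c) by
      rw [ENNReal.ofReal_pow (by norm_num)]; simp]
    rw [← ENNReal.ofReal_mul' (by positivity), ← ENNReal.ofReal_mul (by positivity)]
    congr 1
    rw [S.hN]
    field_simp
  calc ENNReal.ofReal (∑ m ∈ s1, w ^ S.K.kd (S.mv.jj m) (S.mv.tm m) * S.mv.ph m) *
        ((2 : ℝ≥0∞) ^ c * (S.As S.th p a x * S.psi p a x))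
      ≤ ENNReal.ofReal (Real.pi * S.N c / S.δ * Cost (S.K.Sw p s0 (S.N c)) S.ρ s0 e0) *
        ((2 : ℝ≥0∞) ^ c * (S.As S.th p a x * S.psi p a x)) := by
        gcongr
    _ = ENNReal.ofReal (Real.pi * S.N c / S.δ * Cost (S.K.Sw p s0 (S.N c)) S.ρ s0 e0) *
        (2 : ℝ≥0∞) ^ c * (S.As S.th p a x * S.psi p a x) := by ring
    _ = _ := by rw [h6]; ring

open Classical in
/-- **ROTSUM at a point** -/
theorem rot_sum_point (j : ℕ) (x : E) {w : ℝ} (hw : 0 ≤ w) (hwρ : 3 * w ≤ S.ρ) :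
    ∑ m ∈ (Finset.range S.mT).filter (fun m => S.mv.IsRot m),
      Sys.iw (RG S j m) x * (ENNReal.ofReal (w ^ S.K.kd (S.mv.jj m) (S.mv.tm m) *
        S.mv.ph m) * un0 S (S.nd m x j) m x)
      ≤ ENNReal.ofReal (Real.pi * S.c0 / S.δ) * ∑ m ∈ Finset.range S.mT,
        Sys.iw (UG S j m) x * S.un (S.nd m x j) m x := by
  rw [← Finset.sum_fiberwise_of_maps_to (t := Finset.range S.mT)
    (g := fun m => S.bs (S.nd m x j) m x), Finset.mul_sum]
  · refine Finset.sum_le_sum fun a _ => ?_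
    refine block_point hw hwρ _ fun m hm => ?_
    rw [Finset.mem_filter, Finset.mem_filter, Finset.mem_range] at hm
    exact ⟨hm.1.1, hm.1.2, hm.2⟩
  · intro m hm
    rw [Finset.mem_filter, Finset.mem_range] at hm
    rw [Finset.mem_range]
    exact lt_of_le_of_lt (Sys.bs_le _ _ _) hm.1

/-- `√(1 - log D*) ≤ 2 * 2 ^ class` at counted labels -/
lemma sl_le {p : List ℕ} {m : ℕ} {x : E} (hm : S.mv.tm m < S.T) (h : x ∈ S.om p m) :
    S.sl p m x ≤ 2 * (2 : ℝ≥0∞) ^ S.kl p m x := by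
  unfold Sys.sl
  by_cases h0 : S.kl p m x = 0
  · rw [if_pos h0, h0, pow_zero, mul_one]
    exact one_le_two
  rw [if_neg h0]
  have h1 := Sys.thr_le_Db_of_om hm h
  set c := S.kl p m x with hc
  have h2 : S.Db p m x ≤ 1 := Sys.Dw_le_one _ _ _ _
  have h3 : S.Db p m x ≠ ⊤ := ne_top_of_le_ne_top ENNReal.one_ne_top h2
  rw [S.hthr] at h1
  have h4 : Real.exp (1 - 4 ^ c) / 10 ≤ (S.Db p m x).toReal := by
    rwa [ENNReal.ofReal_le_iff_le_toReal h3] at h1
  have h5 : 0 < Real.exp (1 - 4 ^ c) / 10 := by positivity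
  have h6 := Real.log_le_log h5 h4
  rw [Real.log_div (Real.exp_pos _).ne' (by norm_num), Real.log_exp] at h6
  have h7 : Real.log 10 ≤ 3 := by
    have h8 : (10 : ℝ) ≤ Real.exp 1 ^ 3 := by
      have := Real.exp_one_gt_d9
      calc (10 : ℝ) ≤ 2.7 ^ 3 := by norm_num
        _ ≤ Real.exp 1 ^ 3 := by gcongr; linarith
    calc Real.log 10 ≤ Real.log (Real.exp 1 ^ 3) := Real.log_le_log (by norm_num) h8
      _ = 3 := by rw [Real.log_pow, Real.log_exp]; norm_num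
  have h9 : (1 : ℝ) ≤ 4 ^ c := one_le_pow₀ (by norm_num)
  have h10 : 1 - Real.log (S.Db p m x).toReal ≤ (2 * 2 ^ c) ^ 2 := by
    have : ((2 : ℝ) * 2 ^ c) ^ 2 = 4 * 4 ^ c := by
      rw [mul_pow, ← pow_mul, mul_comm c 2, pow_mul]; norm_num
    rw [this]
    linarith
  have h11 : Real.sqrt (1 - Real.log (S.Db p m x).toReal) ≤ 2 * 2 ^ c :=
    Real.sqrt_le_iff.2 ⟨by positivity, h10⟩
  refine (ENNReal.ofReal_le_ofReal h11).trans (le_of_eq ?_)
  rw [ENNReal.ofReal_mul (by norm_num), ENNReal.ofReal_pow (by norm_num)]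
  simp

/-- the integrand of `Rw` at a rotation -/
lemma Rw_point {j m : ℕ} {x : E} (hm : m < S.mT) (hNL : x ∈ S.NL j m) :
    Sys.iw (S.thru (j + 1) m ∩ S.OL (j + 1) m) x *
      (S.As S.th (S.nd m x j) m x * S.psi (S.nd m x j) m x * S.s2 (S.nd m x j) m x)
      ≤ Sys.iw (RG S j m) x * un0 S (S.nd m x j) m x := by
  by_cases hx : x ∈ S.thru (j + 1) m ∩ S.OL (j + 1) m
  · have h1 : x ∈ S.om (S.nd m x j) m := hx.2 j (Nat.lt_succ_self j)
    have h2 : x ∈ RG S j m :=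
      ⟨⟨hNL, fun i hi => hx.2 i (Nat.lt_succ_of_lt hi)⟩, h1, hx.1⟩
    unfold Sys.iw
    rw [indicator_of_mem hx, indicator_of_mem h2]
    simp only [Pi.one_apply, one_mul]
    unfold un0 Sys.s2
    rw [mul_comm]
  · unfold Sys.iw
    rw [indicator_of_notMem hx, zero_mul]
    exact zero_le

end Vale.Agent.P262.H924.M2
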