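import Vale.Agent.P262.H924.RotSum

/-!
# P262, milestone 2: sum over the rotation moves, integrated
-/

set_option linter.all false

open MeasureTheory ProbabilityTheory Set
open scoped ENNReal RealInnerProductSpace
open Vale.Agent.P262.H118 (Iv st en ON rotE tau wd wrd Mg Piece K2 El2 paths Cl cl_paths mem_paths
  iv_st)
open Vale.Agent.P262.H274 (Slow Cost)
open Vale.Agent.P262.H395 (fib mix Inv inv_fib measurable_fib fib_mono)

namespace Vale.Agent.P262.H924.M2

open Vale.Agent.P262.M2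

variable {E : Type*} [NormedAddCommGroup E] [InnerProductSpace ℝ E] [FiniteDimensional ℝ E]
  [MeasurableSpace E] [BorelSpace E] {S : Sys E}

/-! ### measurability of functions of the node of a label -/

lemma measurableSet_nd (j : ℕ) (m : ℕ) (p : List ℕ) : MeasurableSet {x : E | S.nd m x j = p} := by
  induction j generalizing p with
  | zero =>
    have : {x : E | S.nd m x 0 = p} = {x : E | [] = p} := rfl
    rw [this]
    exact MeasurableSet.const _
  | succ j ih =>
    rcases p with _ | ⟨c, p⟩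
    · have : {x : E | S.nd m x (j + 1) = []} = ∅ := by
        ext x
        simp [nd_succ]
      rw [this]; exact MeasurableSet.empty
    · have : {x : E | S.nd m x (j + 1) = c :: p}
          = {x : E | S.nd m x j = p} ∩ {x : E | S.kl p m x = c} := by
        ext x
        simp only [mem_setOf_eq, nd_succ, List.cons.injEq, mem_inter_iff]
        constructor
        · rintro ⟨h1, h2⟩; exact ⟨h2, by rwa [h2] at h1⟩
        · rintro ⟨h1, h2⟩; exact ⟨by rwa [h1], h1⟩
      rw [this]
      exact (ih p).inter (Sys.measurableSet_kl p m c)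

lemma measurable_nd {f : List ℕ → E → ℝ≥0∞} (hf : ∀ p, Measurable (f p)) (j m : ℕ) :
    Measurable fun x => f (S.nd m x j) x := by
  intro s hs
  have : (fun x => f (S.nd m x j) x) ⁻¹' s = ⋃ p : List ℕ, {x | S.nd m x j = p} ∩ f p ⁻¹' s := by
    ext x
    simp only [mem_preimage, mem_iUnion, mem_inter_iff, mem_setOf_eq]
    constructor
    · intro h; exact ⟨_, rfl, h⟩
    · rintro ⟨p, h1, h2⟩; rwa [h1]
  rw [this]
  exact MeasurableSet.iUnion fun p => (measurableSet_nd j m p).inter (hf p hs)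

lemma measurableSet_nd' {A : List ℕ → Set E} (hA : ∀ p, MeasurableSet (A p)) (j m : ℕ) :
    MeasurableSet {x | x ∈ A (S.nd m x j)} := by
  have : {x | x ∈ A (S.nd m x j)} = ⋃ p : List ℕ, {x | S.nd m x j = p} ∩ A p := by
    ext x
    simp only [mem_setOf_eq, mem_iUnion, mem_inter_iff]
    constructor
    · intro h; exact ⟨_, rfl, h⟩
    · rintro ⟨p, h1, h2⟩; rwa [h1]
  rw [this]
  exact MeasurableSet.iUnion fun p => (measurableSet_nd j m p).inter (hA p)

lemma measurableSet_NL (j m : ℕ) : MeasurableSet (S.NL j m) :=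
  measurableSet_nd' (A := fun p => {x | ¬ S.Leaf p m}) (fun p => MeasurableSet.const _) j m

lemma measurableSet_om_nd (j m : ℕ) : MeasurableSet {x | x ∈ S.om (S.nd m x j) m} :=
  measurableSet_nd' (A := fun p => S.om p m) (fun p => Sys.measurableSet_om p m) j m

lemma measurableSet_OL (j m : ℕ) : MeasurableSet (S.OL j m) := by
  have : S.OL j m = ⋂ i : ℕ, ⋂ _ : i < j, {x | x ∈ S.om (S.nd m x i) m} := by
    ext x
    simp only [Sys.OL, mem_setOf_eq, mem_iInter]
  rw [this]
  exact MeasurableSet.iInter fun i => MeasurableSet.iInter fun _ => measurableSet_om_nd i m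

lemma measurableSet_UG (j m : ℕ) : MeasurableSet (UG S j m) := by
  have h1 : ∀ p, MeasurableSet {x | S.bs p m x = m} := by
    intro p
    have : {x : E | S.bs p m x = m}
        = ⋃ c : ℕ, {x | S.kl p m x = c} ∩ {x : E | S.mv.sS (S.K.B p c) m = m} := by
      ext x
      simp only [mem_setOf_eq, mem_iUnion, mem_inter_iff]
      constructor
      · intro h; exact ⟨_, rfl, h⟩
      · rintro ⟨c, h1, h2⟩
        unfold Sys.bs Sys.BB
        rw [h1]; exact h2
    rw [this]
    exact MeasurableSet.iUnion fun c => (Sys.measurableSet_kl p m c).inter (MeasurableSet.const _)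
  have h2 : UG S j m = (S.NL j m ∩ S.OL j m) ∩ ({x | x ∈ S.om (S.nd m x j) m} ∩
      {x | x ∈ (fun p => {x | S.bs p m x = m}) (S.nd m x j)}) := rfl
  rw [h2]
  exact ((measurableSet_NL j m).inter (measurableSet_OL j m)).inter
    ((measurableSet_om_nd j m).inter (measurableSet_nd' h1 j m))

/-- parents of rotating nodes are not leaves -/
lemma NL_of_thru {j m : ℕ} {x : E} (hr : S.mv.IsRot m) (h : S.nd m x (j + 1) = S.mv.jj m) :
    x ∈ S.NL j m := by
  unfold Sys.NL Sys.Leaf
  simp only [mem_setOf_eq]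
  intro hl
  obtain ⟨θ, b, hON, h1, h2, -⟩ := (S.mv.rot (S.mv.tm m) m hr.1 hr.2).1
  rw [← h, nd_succ] at h1 h2
  simp only [List.tail_cons] at h1 h2
  rw [(S.K.leaf hl _).1] at h1
  have h3 : θ = 0 := by
    have := (Submodule.mem_orthogonal _ _).1 h2 θ h1
    exact inner_self_eq_zero.1 this
  have h4 := hON.hp
  rw [h3, norm_zero] at h4
  exact zero_ne_one h4

omit [InnerProductSpace ℝ E] [FiniteDimensional ℝ E] [BorelSpace E] in
/-- sums of integrals are at most the integral of the sum -/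
lemma sum_lintegral_le {μ : Measure E} {ι : Type*} (s : Finset ι) (f : ι → E → ℝ≥0∞) :
    ∑ i ∈ s, ∫⁻ x, f i x ∂μ ≤ ∫⁻ x, ∑ i ∈ s, f i x ∂μ := by
  classical
  induction s using Finset.induction_on with
  | empty => simp
  | insert a s ha ih =>
    simp only [Finset.sum_insert ha]
    exact (add_le_add le_rfl ih).trans (le_lintegral_add _ _)

lemma Ut_eq (j : ℕ) : S.Ut j = ∫⁻ x, ∑ m ∈ Finset.range S.mT,
    Sys.iw (UG S j m) x * S.un (S.nd m x j) m x ∂stdGaussian E := by
  rw [lintegral_finset_sum]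
  · rfl
  · intro m _
    have h1 : Measurable (Sys.iw (UG S j m)) := measurable_one.indicator (measurableSet_UG j m)
    exact h1.mul (measurable_nd (f := fun p => S.un p m) (fun p => Sys.un_meas p m) j m)

open Classical in
/-- **ROTSUM** with the factor `2 ^ class` -/
theorem rot_sum_un (j : ℕ) {w : ℝ} (hw : 0 ≤ w) (hwρ : 3 * w ≤ S.ρ) :
    ∑ m ∈ (Finset.range S.mT).filter (fun m => S.mv.IsRot m),
      ENNReal.ofReal (w ^ S.K.kd (S.mv.jj m) (S.mv.tm m) * S.mv.ph m) *
        ∫⁻ x, Sys.iw (RG S j m) x * un0 S (S.nd m x j) m x ∂stdGaussian E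
      ≤ ENNReal.ofReal (Real.pi * S.c0 / S.δ) * S.Ut j := by
  have hC : ENNReal.ofReal (Real.pi * S.c0 / S.δ) ≠ ⊤ := ENNReal.ofReal_ne_top
  rw [Ut_eq, ← lintegral_const_mul' _ _ hC]
  have h1 : ∀ m, ENNReal.ofReal (w ^ S.K.kd (S.mv.jj m) (S.mv.tm m) * S.mv.ph m) *
        ∫⁻ x, Sys.iw (RG S j m) x * un0 S (S.nd m x j) m x ∂stdGaussian E
      = ∫⁻ x, Sys.iw (RG S j m) x *
        (ENNReal.ofReal (w ^ S.K.kd (S.mv.jj m) (S.mv.tm m) * S.mv.ph m) *
          un0 S (S.nd m x j) m x) ∂stdGaussian E := by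
    intro m
    rw [← lintegral_const_mul' _ _ ENNReal.ofReal_ne_top]
    refine lintegral_congr fun x => ?_
    ring
  simp only [h1]
  refine (sum_lintegral_le _ _).trans (lintegral_mono fun x => ?_)
  exact rot_sum_point j x hw hwρ

/-- the right side of the throughput -/
lemma Rw_le {j m : ℕ} (hm : m < S.mT) (hr : S.mv.IsRot m) :
    S.Rw j m ≤ ∫⁻ x, Sys.iw (RG S j m) x * un0 S (S.nd m x j) m x ∂stdGaussian E := by
  unfold Sys.Rw
  refine lintegral_mono fun x => ?_
  by_cases hx : x ∈ S.thru (j + 1) m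
  · exact Rw_point hm (NL_of_thru hr hx)
  · unfold Sys.iw
    simp only
    rw [indicator_of_notMem fun h => hx h.1, zero_mul]
    exact zero_le

open Classical in
/-- **ROTSUM** on the names of Blocks -/
theorem rotsum_Rw (j : ℕ) {w : ℝ} (hw : 0 ≤ w) (hwρ : 3 * w ≤ S.ρ) :
    ∑ m ∈ (Finset.range S.mT).filter (fun m => S.mv.IsRot m),
      ENNReal.ofReal (S.mv.ph m * w ^ S.kr m) * S.Rw j m
      ≤ ENNReal.ofReal (Real.pi * S.c0 / S.δ) * S.Ut j := by
  refine le_trans ?_ (rot_sum_un (S := S) j hw hwρ)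
  refine Finset.sum_le_sum fun m hm => ?_
  rw [Finset.mem_filter, Finset.mem_range] at hm
  have h3 := Rw_le (S := S) (j := j) hm.1 hm.2
  unfold Sys.kr
  rw [mul_comm (S.mv.ph m)]
  gcongr

end Vale.Agent.P262.H924.M2
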