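import Mathlib

/-!
# P262, milestone 1: arithmetic of the smallness conditions (helper924)

`Q = (1+R)(d+1)`; everything is bounded by a constant times a power of `Q`, and `k0` is smaller than
the inverse of any such bound.
-/

set_option linter.all false

namespace Vale.Agent.P262.H924

/-- **`AccHyp.final`, conditions `s1`, `s3`, `s4`** (with `Θ = 1`, `C1 ≤ 8`). -/
theorem small_acc {K1 K2 K3 K4 Q dd k0 kk c C0 C1 C3 : ℝ} {a b e f : ℕ} (hK1 : 0 ≤ K1)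
    (hK2 : 0 ≤ K2) (hK3 : 0 ≤ K3) (hK4 : 0 ≤ K4) (hQ : 1 ≤ Q) (hd0 : 0 ≤ dd) (hdQ : dd ≤ Q)
    (hk0 : 0 ≤ k0) (hkk0 : 0 ≤ kk) (hc0 : 0 < c) (hC0' : 0 ≤ C0) (hC1' : 0 ≤ C1) (hC3' : 0 ≤ C3)
    (hkk : kk ≤ K1 * Q ^ a * k0) (hc : 1 / c ≤ K2 * Q ^ b) (hC0 : C0 ≤ K3 * Q ^ e) (hC1 : C1 ≤ 8)
    (hC3 : C3 ≤ K4 * Q ^ f)
    (hs : 2048 * K1 * (1 + K2 + K3) * (1 + K4) * Q ^ (a + b + e + f + 2) * k0 ≤ 1) :
    4 * kk + dd * (1 / c + C0) * kk * (2 * 1 + 4) ≤ 1 / 2 ∧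
    (2 * kk + dd * (C3 + 1) * kk * (2 * 1 + 4)) * (2 * (dd * (1 / c + C0) * C1)) ≤ 1 / 16 ∧
    (2 * kk + dd * (C3 + 1) * kk * (2 * 1 + 4)) * 4 ≤ 1 := by
  have hQ0 : 0 ≤ Q := by linarith
  have hp : ∀ n : ℕ, 1 ≤ Q ^ n := fun n => one_le_pow₀ hQ
  set X := K1 * Q ^ a with hX
  set Y := (1 + K2 + K3) * Q ^ (b + e) with hY
  set Z := (1 + K4) * Q ^ f with hZ
  have hX0 : 0 ≤ X := by positivity
  have hbe : Q ^ b ≤ Q ^ (b + e) := pow_le_pow_right₀ hQ (Nat.le_add_right _ _)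
  have hbe' : Q ^ e ≤ Q ^ (b + e) := pow_le_pow_right₀ hQ (Nat.le_add_left _ _)
  have hY1 : 1 ≤ Y := by
    have h2 := hp (b + e)
    have : (1 : ℝ) * 1 ≤ (1 + K2 + K3) * Q ^ (b + e) :=
      mul_le_mul (by linarith) h2 (by norm_num) (by linarith)
    linarith only [this]
  have hZ1 : 1 ≤ Z := by
    have : (1 : ℝ) * 1 ≤ (1 + K4) * Q ^ f :=
      mul_le_mul (by linarith) (hp f) (by norm_num) (by linarith)
    linarith only [this]
  have hcC : 1 / c + C0 ≤ Y := by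
    have h1 : K2 * Q ^ b ≤ K2 * Q ^ (b + e) := mul_le_mul_of_nonneg_left hbe hK2
    have h2 : K3 * Q ^ e ≤ K3 * Q ^ (b + e) := mul_le_mul_of_nonneg_left hbe' hK3
    have h3 : 0 ≤ Q ^ (b + e) := by positivity
    rw [hY]
    linarith [show (1 + K2 + K3) * Q ^ (b + e) = Q ^ (b + e) + K2 * Q ^ (b + e) + K3 * Q ^ (b + e)
      by ring]
  have hC31 : C3 + 1 ≤ Z := by
    have h2 := hp f
    rw [hZ]
    linarith [show (1 + K4) * Q ^ f = Q ^ f + K4 * Q ^ f by ring]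
  have hc1 : 0 < 1 / c := by positivity
  -- the master quantity
  have hmain : 2048 * (Q ^ 2 * X * Y * Z * k0) ≤ 1 := by
    refine le_trans (le_of_eq ?_) hs
    rw [hX, hY, hZ]
    ring
  set W := X * k0 with hW
  have hW0 : 0 ≤ W := by positivity
  have hWk : kk ≤ W := hkk
  have hm2 : 2048 * (Q ^ 2 * Y * Z * W) ≤ 1 := by
    refine le_trans (le_of_eq ?_) hmain
    rw [hW]; ring
  have hY0 : 0 ≤ Y := by linarith
  have hZ0 : 0 ≤ Z := by linarith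
  have hQ2 : Q ≤ Q ^ 2 := by nlinarith
  -- bounds of the two factors
  have e1 : dd * (1 / c + C0) * kk ≤ Q * Y * W := by
    have h1 : dd * (1 / c + C0) ≤ Q * Y := mul_le_mul hdQ hcC (by linarith) hQ0
    exact mul_le_mul h1 hWk hkk0 (by positivity)
  have e2 : dd * (C3 + 1) * kk ≤ Q * Z * W := by
    have h1 : dd * (C3 + 1) ≤ Q * Z := mul_le_mul hdQ hC31 (by linarith) hQ0
    exact mul_le_mul h1 hWk hkk0 (by positivity)
  have e3 : 2 * kk + dd * (C3 + 1) * kk * (2 * 1 + 4) ≤ 8 * (Q * Z * W) := by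
    have h1 : W ≤ Q * Z * W := by
      have : 1 ≤ Q * Z := by nlinarith
      nlinarith only [this, hW0]
    linarith only [hWk, h1, e2]
  have e4 : 2 * (dd * (1 / c + C0) * C1) ≤ 16 * (Q * Y) := by
    have h1 : dd * (1 / c + C0) ≤ Q * Y := mul_le_mul hdQ hcC (by linarith) hQ0
    have h2 : dd * (1 / c + C0) * C1 ≤ Q * Y * 8 := mul_le_mul h1 hC1 hC1' (by positivity)
    linarith only [h2]
  have f1 : Q * Y * W ≤ Q ^ 2 * Y * Z * W := by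
    have h1 : Q * Y * 1 ≤ Q ^ 2 * Y * Z := by
      apply mul_le_mul _ hZ1 (by norm_num) (by positivity)
      exact mul_le_mul_of_nonneg_right hQ2 hY0
    calc Q * Y * W = (Q * Y * 1) * W := by ring
      _ ≤ _ := mul_le_mul_of_nonneg_right h1 hW0
  have f2 : Q * Z * W ≤ Q ^ 2 * Y * Z * W := by
    have h1 : Q * 1 * Z ≤ Q ^ 2 * Y * Z :=
      mul_le_mul_of_nonneg_right (mul_le_mul hQ2 hY1 (by norm_num) (by positivity)) hZ0
    calc Q * Z * W = (Q * 1 * Z) * W := by ring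
      _ ≤ _ := mul_le_mul_of_nonneg_right h1 hW0
  have f3 : W ≤ Q ^ 2 * Y * Z * W := by
    have h1 : (1 : ℝ) ≤ Q ^ 2 * Y * Z := by
      have h2 : (1 : ℝ) * 1 ≤ Q ^ 2 * Y := mul_le_mul (by linarith) hY1 (by norm_num) (by positivity)
      have h3 : (1 : ℝ) * 1 * 1 ≤ Q ^ 2 * Y * Z := mul_le_mul h2 hZ1 (by norm_num) (by positivity)
      linarith only [h3]
    nlinarith only [h1, hW0]
  refine ⟨?_, ?_, ?_⟩
  · linarith only [e1, f1, hm2, hWk, f3]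
  · have hE0 : 0 ≤ 2 * (dd * (1 / c + C0) * C1) := by positivity
    have h1 : (2 * kk + dd * (C3 + 1) * kk * (2 * 1 + 4)) * (2 * (dd * (1 / c + C0) * C1))
        ≤ 8 * (Q * Z * W) * (16 * (Q * Y)) := mul_le_mul e3 e4 hE0 (by positivity)
    have h2 : 8 * (Q * Z * W) * (16 * (Q * Y)) = 128 * (Q ^ 2 * Y * Z * W) := by ring
    linarith only [h1, h2, hm2]
  · linarith only [e3, f2, hm2]

/-- products of bounded quantities are bounded: used to collect the constants -/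
lemma poly_mul {x y A B Q : ℝ} {m n : ℕ} (hQ : 1 ≤ Q) (hx : x ≤ A * Q ^ m) (hy0 : 0 ≤ y)
    (hy : y ≤ B * Q ^ n) (hA : 0 ≤ A) : x * y ≤ A * B * Q ^ (m + n) := by
  have hQ0 : 0 ≤ Q := by linarith
  calc x * y ≤ (A * Q ^ m) * (B * Q ^ n) := mul_le_mul hx hy hy0 (by positivity)
    _ = _ := by ring

lemma poly_add {x y A B Q : ℝ} {m n : ℕ} (hQ : 1 ≤ Q) (hA : 0 ≤ A) (hB : 0 ≤ B)
    (hx : x ≤ A * Q ^ m) (hy : y ≤ B * Q ^ n) : x + y ≤ (A + B) * Q ^ (m + n) := by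
  have h1 : Q ^ m ≤ Q ^ (m + n) := pow_le_pow_right₀ hQ (Nat.le_add_right _ _)
  have h2 : Q ^ n ≤ Q ^ (m + n) := pow_le_pow_right₀ hQ (Nat.le_add_left _ _)
  have h3 := mul_le_mul_of_nonneg_left h1 hA
  have h4 := mul_le_mul_of_nonneg_left h2 hB
  linarith [show (A + B) * Q ^ (m + n) = A * Q ^ (m + n) + B * Q ^ (m + n) by ring]

lemma poly_pow {x A Q : ℝ} {m : ℕ} (n : ℕ) (hx0 : 0 ≤ x) (hx : x ≤ A * Q ^ m) :
    x ^ n ≤ A ^ n * Q ^ (m * n) := by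
  calc x ^ n ≤ (A * Q ^ m) ^ n := pow_le_pow_left₀ hx0 hx n
    _ = _ := by rw [mul_pow, ← pow_mul]

lemma poly_const {A Q : ℝ} (n : ℕ) (hQ : 1 ≤ Q) (hA : 0 ≤ A) : A ≤ A * Q ^ n := by
  have := one_le_pow₀ (n := n) hQ
  nlinarith

end Vale.Agent.P262.H924
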